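import Vale.Agent.P300LS.Defs

/-!
P300L : the statement of the hand-in and the interface for largeness
-/

open scoped Manifold ContDiff Topology
open Filter

namespace Vale.Agent.P300LS

open P300

/-- The statement of the hand-in (the hand-in file spells it out). -/
def Statement : Prop :=
  ∃ (n : ℕ) (X : Type) (_ : TopologicalSpace X) (_ : ChartedSpace (Fin n → ℂ) X),
    (IsManifold 𝓘(ℂ, Fin n → ℂ) ω X ∧ T2Space X ∧ CompactSpace X ∧ ConnectedSpace X ∧
      Final.IsNonsingularProjective (Fin n → ℂ) X) ∧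
    Large.HasLargeFundamentalGroup (Fin n → ℂ) X ∧
    (∃ (V : Type) (_ : TopologicalSpace V) (_ : ChartedSpace (Fin n → ℂ) V) (p : V → X),
      Final.IsUniversalCovering (Fin n → ℂ) p) ∧
    ∀ (V : Type) (_ : TopologicalSpace V) (_ : ChartedSpace (Fin n → ℂ) V) (p : V → X),
      Final.IsUniversalCovering (Fin n → ℂ) p →
        ¬ Large.IsStein (Fin n → ℂ) V ∧ ¬ HolomorphicallyConvex (Fin n → ℂ) V

variable (E : Type) [NormedAddCommGroup E] [NormedSpace ℂ E]
  {V : Type} [TopologicalSpace V] [ChartedSpace E V]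

/-- `δ` is a germ of a holomorphic disc in `K` with the centre `k` -/
def Disc (K : Set V) (k : V) (δ : ℂ → V) : Prop :=
  δ 0 = k ∧ ContMDiffAt 𝓘(ℂ) 𝓘(ℂ, E) ω δ 0 ∧ ∀ᶠ s in 𝓝 (0 : ℂ), δ s ∈ K

/-- near each of its points `K` is swept out by the holomorphic discs through the point -/
def Swept (K : Set V) : Prop :=
  ∀ k ∈ K, ∀ U : Set V, (∀ δ, Disc E K k δ → ∀ᶠ s in 𝓝 (0 : ℂ), δ s ∈ U) → U ∈ 𝓝[K] k

variable (V) in
/-- there is no compact curve in `V` -/
def NoCurve : Prop := ∀ K : Set V, IsCompact K → Swept E K → K.Finite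

/-- **LARGE** (71): a covering without compact curves gives a large fundamental group -/
def LARGE : Prop := ∀ (n : ℕ) (X V : Type) [TopologicalSpace X] [ChartedSpace (Fin n → ℂ) X]
  [IsManifold 𝓘(ℂ, Fin n → ℂ) ω X] [T2Space X] [CompactSpace X] [TopologicalSpace V]
  [ChartedSpace (Fin n → ℂ) V] [IsManifold 𝓘(ℂ, Fin n → ℂ) ω V] [T2Space V] (p : V → X),
  IsHolomorphicCovering (Fin n → ℂ) p → NoCurve (Fin n → ℂ) V →
  Large.HasLargeFundamentalGroup (Fin n → ℂ) X

/-- **CHOW**: the image of a projective embedding is algebraic and nonsingular -/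
def CHOW : Prop := ∀ (n N : ℕ) (X : Type) [TopologicalSpace X] [ChartedSpace (Fin n → ℂ) X]
  [IsManifold 𝓘(ℂ, Fin n → ℂ) ω X] [T2Space X] [CompactSpace X] [ConnectedSpace X]
  (Φ : X → Projectivization ℂ (Fin (N + 1) → ℂ)), Function.Injective Φ →
  Final.IsProjectiveImmersion (Fin n → ℂ) Φ → Final.IsNonsingularProjective (Fin n → ℂ) X

/-- what the construction has to give -/
def Core : Prop :=
  ∃ (n N : ℕ) (X : Type) (_ : TopologicalSpace X) (_ : ChartedSpace (Fin n → ℂ) X)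
    (Φ : X → Projectivization ℂ (Fin (N + 1) → ℂ)),
    (IsManifold 𝓘(ℂ, Fin n → ℂ) ω X ∧ T2Space X ∧ CompactSpace X ∧ ConnectedSpace X ∧
      Function.Injective Φ ∧ Final.IsProjectiveImmersion (Fin n → ℂ) Φ) ∧
    (∃ (V : Type) (_ : TopologicalSpace V) (_ : ChartedSpace (Fin n → ℂ) V) (p : V → X),
      Final.IsUniversalCovering (Fin n → ℂ) p) ∧
    ∀ (V : Type) (_ : TopologicalSpace V) (_ : ChartedSpace (Fin n → ℂ) V) (p : V → X),
      Final.IsUniversalCovering (Fin n → ℂ) p →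
        NoCurve (Fin n → ℂ) V ∧ ¬ HolomorphicallyConvex (Fin n → ℂ) V

theorem statement_of (h1 : LARGE) (h2 : CHOW) (h : Core) : Statement := by
  obtain ⟨n, N, X, tX, cX, Φ, ⟨a1, a2, a3, a4, a5, a6⟩, ⟨V, tV, cV, p, hp⟩, h3⟩ := h
  have := hp.isManifold
  have := hp.t2Space
  exact ⟨n, X, tX, cX, ⟨a1, a2, a3, a4, h2 n N X Φ a5 a6⟩,
    h1 n X V p hp.covering (h3 V tV cV p hp).1, ⟨V, tV, cV, p, hp⟩,
    fun W tW cW q hq => ⟨fun hs => (h3 W tW cW q hq).2 hs.1, (h3 W tW cW q hq).2⟩⟩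

end Vale.Agent.P300LS
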