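import Vale.Agent.P300LS.Cur
import Mathlib.Topology.Compactification.OnePoint.Basic
import Mathlib.Topology.DiscreteSubset
import Mathlib.Topology.Separation.Connected

/-!
P300L : the discs of an affine curve mapped to an embedded projective manifold
-/

open scoped Manifold Topology ContDiff LinearAlgebra.Projectivization
open Filter Set Metric Polynomial Function

noncomputable section

namespace Vale.Agent.P300LS

open P300

variable {D : Type} [CommRing D] [Algebra ℂ D] [Algebra ℂ[X] D] [IsScalarTower ℂ ℂ[X] D]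
  [Module.Finite ℂ[X] D] [IsDomain D] [FaithfulSMul ℂ[X] D]

theorem discs {m : ℂ → ℂ} (hm : ∀ u, u ≠ 0 → ContDiffAt ℂ ω m u) (hi : Injective m) :
    ∃ (A : Type) (_ : Finite A) (k : A → ℕ) (δ : A → ℂ → Pt D) (r : ℝ), 0 < r ∧ (∀ a, k a ≠ 0) ∧
      (∀ a s, s ≠ 0 → ContinuousAt (δ a) s) ∧
      (∀ a, ∀ s ∈ ball (0 : ℂ) (3 * r) \ {0}, (δ a s).t = m (s ^ k a) ∧
        ∀ b, ContDiffAt ℂ ω (fun s => (δ a s).v b) s) ∧
      ∀ᶠ u in 𝓝[≠] 0, ∀ y : Pt D, y.t = m u → ∃ a, ∃ s ∈ closedBall (0 : ℂ) r \ {0}, δ a s = y := by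
  obtain ⟨h, h0, hc, ha⟩ := cover (D := D)
  obtain ⟨R, R0, hR⟩ := (nhdsWithin_hasBasis nhds_basis_closedBall _).mem_iff.1
    (nhdsNE_le_cofinite (0 : ℂ) ((finite_setOfPred_isRoot h0).preimage hi.injOn).compl_mem_cofinite)
  have hR' : ∀ u, u ≠ 0 → ‖u‖ ≤ R → h.eval (m u) ≠ 0 := fun u u0 hu =>
    hR ⟨mem_closedBall_zero_iff.2 hu, u0⟩
  obtain ⟨A, fA, k, δ, k0, dc, dt, ds⟩ := pui hc fin_t R0 fun u u0 hu =>
    ⟨(hm u u0).continuousAt, hR' u u0 hu⟩
  have r0 : 0 < min 1 R / 3 := by positivity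
  have lt : ∀ a, ∀ s ∈ ball (0 : ℂ) (3 * (min 1 R / 3)) \ {0}, ‖s ^ k a‖ < R := fun a s hs => by
    have := mem_ball_zero_iff.1 hs.1
    rw [mul_div_cancel₀ _ three_ne_zero, lt_min_iff] at this
    exact (norm_pow s _).trans_lt ((pow_le_of_le_one (norm_nonneg _) this.1.le (k0 a)).trans_lt
      this.2)
  refine ⟨A, fA, k, δ, _, r0, k0, dc, fun a s hs => ⟨dt a s hs.2 (lt a s hs), fun b => ?_⟩, ?_⟩
  · have e := dt a s hs.2 (lt a s hs)
    obtain ⟨ψ, h1, h2⟩ := ha (δ a s) (e ▸ hR' _ (pow_ne_zero _ hs.2) (lt a s hs).le) b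
    refine ((e ▸ h1 : ContDiffAt ℂ ω ψ (m (s ^ k a))).comp s ((hm _ (pow_ne_zero _ hs.2)).comp s
      (contDiffAt_id.pow _))).congr_of_eventuallyEq ?_
    filter_upwards [(dc a s hs.2).eventually h2,
      (isOpen_ball.sdiff isClosed_singleton).mem_nhds hs] with z h3 h4
    exact h3.trans (congrArg ψ (dt a z h4.2 (lt a z h4)))
  · have k1 : ∀ c : ℝ, 0 < c → ∀ᶠ u : ℂ in 𝓝[≠] 0, ‖u‖ < c := fun c c0 =>
      nhdsWithin_le_nhds (mem_of_superset (ball_mem_nhds 0 c0) fun _ => mem_ball_zero_iff.1)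
    filter_upwards [self_mem_nhdsWithin, k1 R R0, eventually_all.2 fun a => k1 _ (pow_pos r0 (k a))]
      with u u0 h1 h2 y hy
    obtain ⟨a, s, rfl, e⟩ := ds y u u0 h1 hy
    exact ⟨a, s, ⟨mem_closedBall_zero_iff.2 (lt_of_pow_lt_pow_left₀ _ r0.le
      ((norm_pow s _).symm.trans_lt (h2 a))).le, fun e => u0 (by
        rw [mem_singleton_iff.1 e, zero_pow (k0 a)]; rfl)⟩, e⟩

variable {n : Type} [Fintype n] {E : Type} [NormedAddCommGroup E] [NormedSpace ℂ E]
  [CompleteSpace E] {X : Type} [TopologicalSpace X] [ChartedSpace E X] [CompactSpace X]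
  {Φ : X → ℙ ℂ (n → ℂ)} {f : Pt D → X} {ρ : n → D} {i : n}

theorem pun {r : ℝ} (h : 0 < r) : ball (0 : ℂ) (3 * r) \ {0} ∈ 𝓝[≠] (0 : ℂ) :=
  sdiff_mem_nhdsWithin_compl (ball_mem_nhds _ (by linarith)) _

theorem ne0 {D n : Type} [CommRing D] [Algebra ℂ D] {ρ : n → D} {i : n} (h1 : ρ i = 1) (y : Pt D) :
    (fun j => y.v (ρ j)) ≠ 0 := fun e => by
  simpa [h1] using congrFun e i

theorem loc_inf (hi : Injective Φ) (hΦ : Final.IsProjectiveImmersion E Φ) (h1 : ρ i = 1)
    (hf : ∀ y : Pt D, (fun j => y.v (ρ j)) ∈ (Φ (f y)).submodule) :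
    Loc E f (fun y => (y.t : OnePoint ℂ)) OnePoint.infty := by
  classical
  obtain ⟨A, fA, k, δ, r, r0, k0, dc, da, cv⟩ := discs (D := D) (m := fun u => u⁻¹)
    (fun u hu => contDiffAt_inv ℂ hu) inv_injective
  have ex : ∀ a, ∃ x, ContMDiffAt 𝓘(ℂ) 𝓘(ℂ, E) ω (update (fun s => f (δ a s)) 0 x) 0 := fun a => by
    have m : MeromorphicAt (fun s j => (δ a s).v (ρ j)) 0 := by
      refine (MeromorphicAt.fun_sum (s := Finset.univ) fun j _ => (mer (mon (ρ j))
        (t := fun s => (s ^ k a)⁻¹) (β := fun s => (δ a s).v (ρ j)) (by fun_prop) ?_ ?_).smul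
        (.const (Pi.single j (1 : ℂ) : n → ℂ) 0)).congr
        (.of_forall fun s => (pi_eq_sum_univ' _).symm)
      · exact mem_of_superset (pun r0) fun s hs => ((da a s hs).2 _).differentiableAt (by simp)
      · filter_upwards [pun r0] with s hs
        exact (da a s hs).1 ▸ v_root _ _
    obtain ⟨g, g1, g2, g3⟩ := (meromorphicOrderAt_ne_top_iff m).1 fun e =>
      let ⟨s, hs⟩ := (meromorphicOrderAt_eq_top_iff.1 e).exists
      ne0 h1 _ hs
    have g4 : ∀ᶠ s in 𝓝[≠] 0, g s ∈ (Φ (f (δ a s))).submodule := by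
      filter_upwards [g3, self_mem_nhdsWithin] with s hs s0
      exact (Submodule.smul_mem_iff _ (zpow_ne_zero _ (sub_ne_zero.2 s0))).1 (hs ▸ hf _)
    obtain ⟨x, hx⟩ := ex_pt hΦ (g1.continuousAt.tendsto.mono_left nhdsWithin_le_nhds) g4
    refine ⟨x, hol_pt hi hΦ g2 g1.contDiffAt ?_⟩
    filter_upwards [eventually_nhdsWithin_iff.1 g4] with s hs
    rcases eq_or_ne s 0 with rfl | s0
    · rwa [update_self]
    · rw [update_of_ne s0]
      exact hs s0
  choose x hx using ex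
  refine ⟨A, fA, r, ball 0 (2 * r) \ {0}, δ, fun a => update (fun s => f (δ a s)) 0 (x a), r0,
    punct (by linarith), sdiff_subset, Subset.rfl, fun a s hs => (dc a s hs.2).continuousWithinAt,
    fun a s hs => ?_, fun a s hs => update_of_ne hs.2 _ _, ?_⟩
  · rcases eq_or_ne s 0 with rfl | s0
    · exact hx a
    refine hol_pt hi hΦ (γ := fun s j => (δ a s).v (ρ j)) (ne0 h1 _)
      (contDiffAt_pi.2 fun j => (da a s ⟨hs, s0⟩).2 _) ?_
    filter_upwards [isOpen_ne.mem_nhds s0] with z hz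
    rw [update_of_ne hz]
    exact hf _
  · rw [OnePoint.nhds_infty_eq, eventually_sup, eventually_map, eventually_pure,
      coclosedCompact_eq_cocompact, ← cobounded_eq_cocompact]
    refine ⟨(tendsto_inv₀_cobounded'.eventually cv).mono fun t ht y hy => ?_,
      fun y hy => (OnePoint.coe_ne_infty _ hy).elim⟩
    obtain ⟨a, s, hs, e⟩ := ht y ((OnePoint.coe_eq_coe.1 hy).trans (inv_inv t).symm)
    exact ⟨a, s, ⟨⟨closedBall_subset_ball (by linarith) hs.1, hs.2⟩, hs.1⟩, e⟩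

theorem loc_fin (hi : Injective Φ) (hΦ : Final.IsProjectiveImmersion E Φ) (h1 : ρ i = 1)
    (hf : ∀ y : Pt D, (fun j => y.v (ρ j)) ∈ (Φ (f y)).submodule) (t : ℂ) :
    Loc E f (fun y => (y.t : OnePoint ℂ)) t ∧
      ∀ y : Pt D, y.t = t → ∃ y' ∈ pathComponent y, y'.t ≠ t := by
  classical
  obtain ⟨A, fA, k, δ, r, r0, k0, dc, da, cv⟩ := discs (D := D) (m := fun u => t + u)
    (fun u _ => by fun_prop) (add_right_injective t)
  have dd : ∀ a b, ∀ᶠ s in 𝓝[≠] 0, DifferentiableAt ℂ (fun s => (δ a s).v b) s := fun a b =>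
    mem_of_superset (pun r0) fun s hs => ((da a s hs).2 _).differentiableAt (by simp)
  have ex : ∀ a, ∃ y, Tendsto (δ a) (𝓝[≠] 0) (𝓝 y) := fun a => lim_hom fun b => by
    obtain ⟨C, hC⟩ := bdd (δ := δ a) (l := 𝓝[≠] 0) (t := t) (Tendsto.congr'
      (mem_of_superset (pun r0) fun s hs => (da a s hs).1.symm)
      (((by fun_prop : Continuous fun s : ℂ => t + s ^ k a).tendsto' 0 t
        (by simp [k0])).mono_left nhdsWithin_le_nhds)) b
    exact ⟨_, Complex.tendsto_limUnder_of_differentiable_on_punctured_nhds_of_bounded_under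
      (dd a b) ⟨C + ‖(δ a 0).v b‖, hC.mono fun s hs => (norm_sub_le _ _).trans (by simpa)⟩⟩
  choose y hy using ex
  let ε a := update (δ a) 0 (y a)
  have ec : ∀ a, Continuous (ε a) := fun a => continuous_iff_continuousAt.2 fun s => by
    rcases eq_or_ne s 0 with rfl | s0
    · exact continuousAt_update_same.2 (hy a)
    · exact (continuousAt_update_of_ne s0).2 (dc a s s0)
  have ee : ∀ a b s, s ≠ 0 → (fun s => (ε a s).v b) =ᶠ[𝓝 s] fun s => (δ a s).v b :=
    fun a b s s0 => mem_of_superset (isOpen_ne.mem_nhds s0) fun z hz =>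
      congrArg (fun w : Pt D => w.v b) (update_of_ne hz _ _)
  have c1 : ∀ᶠ u in 𝓝 t, ∀ z : Pt D, z.t = u → ∃ a, ∃ s ∈ closedBall (0 : ℂ) r, ε a s = z := by
    have c2 : ∀ᶠ u in 𝓝[≠] t, ∀ z : Pt D, z.t = u → z ∈ ⋃ a, ε a '' closedBall 0 r := by
      refine ((tendsto_nhdsWithin_iff.2 ⟨((by fun_prop : Continuous fun u : ℂ => u - t).tendsto'
        t 0 (sub_self t)).mono_left nhdsWithin_le_nhds, eventually_nhdsWithin_of_forall
        fun u hu => sub_ne_zero.2 hu⟩).eventually cv).mono fun u hu z hz => ?_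
      obtain ⟨a, s, hs, e⟩ := hu z (by rw [hz, add_sub_cancel])
      exact mem_iUnion.2 ⟨a, s, hs.1, (update_of_ne hs.2 _ _).trans e⟩
    filter_upwards [eventually_nhdsWithin_iff.1 c2] with u hu z hz
    refine mem_iUnion.1 (show z ∈ ⋃ a, ε a '' closedBall 0 r from ?_)
    rcases eq_or_ne u t with rfl | n
    · have c3 := open_t.preimage_closure_subset_closure_preimage (show z ∈ Pt.t ⁻¹' closure _ from
        mem_closure_iff_frequently.2 (hz ▸ c2.frequently.filter_mono nhdsWithin_le_nhds))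
      refine closure_minimal ?_ (isCompact_iUnion fun a =>
        (isCompact_closedBall _ _).image (ec a)).isClosed c3
      exact fun w hw => hw w rfl
    · exact hu n z hz
  refine ⟨⟨A, fA, r, ball 0 (2 * r), ε, fun a s => f (ε a s), r0, isPathConnected_ball
    (by linarith), Subset.rfl, sdiff_subset, fun a => (ec a).continuousOn, fun a s hs => ?_,
    fun _ _ _ => rfl, ?_⟩, fun z hz => ?_⟩
  · refine hol_pt hi hΦ (γ := fun s j => (ε a s).v (ρ j)) (ne0 h1 _)
      (contDiffAt_pi.2 fun j => ?_) (.of_forall fun _ => hf _)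
    rcases eq_or_ne s 0 with rfl | s0
    · refine (Complex.analyticAt_of_differentiable_on_punctured_nhds_of_continuousAt ?_
        ((cont_v _).comp (ec a)).continuousAt).contDiffAt
      filter_upwards [dd a (ρ j), self_mem_nhdsWithin] with z h2 h3
      exact h2.congr_of_eventuallyEq (ee a _ z h3)
    · exact ((da a s ⟨hs, s0⟩).2 _).congr_of_eventuallyEq (ee a _ s s0)
  · rw [OnePoint.nhds_coe_eq, eventually_map]
    refine c1.mono fun u hu z hz => ?_
    obtain ⟨a, s, hs, e⟩ := hu z (OnePoint.coe_eq_coe.1 hz)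
    exact ⟨a, s, ⟨closedBall_subset_ball (by linarith) hs, hs⟩, e⟩
  · obtain ⟨a, s, -, rfl⟩ := c1.self_of_nhds z hz
    have r1 : (r : ℂ) ≠ 0 := Complex.ofReal_ne_zero.2 r0.ne'
    refine ⟨ε a r, (PathConnectedSpace.joined s r).map (ec a), ?_⟩
    rw [show ε a r = δ a r from update_of_ne r1 _ _, (da a r ⟨by
      rw [mem_ball_zero_iff, Complex.norm_real, Real.norm_of_nonneg r0.le]; linarith, r1⟩).1]
    simpa using fun e => (r1 (by simpa using e)).elim

/-- the image of the fundamental group of a curve is infinite -/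
theorem curve {V : Type} [TopologicalSpace V] [ChartedSpace E V] [T2Space V] {p : V → X}
    (hp : IsHolomorphicCovering E p) (hV : NoCurve E V) (hi : Injective Φ)
    (hΦ : Final.IsProjectiveImmersion E Φ) (f : C(Pt D, X)) (h1 : ρ i = 1)
    (hf : ∀ y : Pt D, (fun j => y.v (ρ j)) ∈ (Φ (f y)).submodule)
    (ht : ∀ y y' : Pt D, f y = f y' → y.t = y'.t) (y : Pt D) :
    (range (FundamentalGroup.map f y)).Infinite := fun hfin => by
  have h2 := top hp hV f _ (fun t => OnePoint.rec (loc_inf hi hΦ h1 hf)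
    (fun t => (loc_fin hi hΦ h1 hf t).1) t) y hfin
  obtain ⟨y', h3, h4⟩ := (loc_fin hi hΦ h1 hf y.t).2 y rfl
  refine ((isPathConnected_pathComponent (x := y)).image
    (cont_v (algebraMap ℂ[X] D Polynomial.X))).isConnected.isPreconnected.infinite_of_nontrivial
    ⟨_, ⟨y', h3, rfl⟩, _, ⟨y, mem_pathComponent_self y, rfl⟩, h4⟩ ?_
  refine (h2.image (extend f Pt.t 0)).subset ?_
  rintro _ ⟨z, hz, rfl⟩
  exact ⟨_, ⟨z, hz, rfl⟩, FactorsThrough.extend_apply (fun a b => ht a b) _ z⟩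

end Vale.Agent.P300LS
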