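import Vale.Agent.P300LS.Nor
import Vale.Agent.P300LS.Dis

/-!
P300L : a covering without compact curves gives a large fundamental group
-/

open Set Function MvPolynomial

namespace Vale.Agent.P300LS

open P300 P300.Large

theorem large : LARGE := by
  intro n X V _ _ _ _ _ _ _ _ _ p hp hV N Φ hi hΦ 𝔭 _ hh hz hinf
  choose μ hμ using fun y : Charts 𝔭 => hz (pt_mem hh y)
  have m : ∀ y, hc y ∈ (Φ (μ y)).submodule := fun y => by
    rw [hμ, pt, mem_mk]
    exact ⟨1, one_smul _ _⟩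
  have c : Continuous μ := continuous_sigma fun i => continuous_iff_continuousAt.2 fun χ =>
    lim_pt hi hΦ (hc_ne ⟨i, χ⟩) (γ := fun χ => hc ⟨i, χ⟩) (tendsto_pi_nhds.2 fun j =>
      (cont_v (D := normalRing 𝔭 i) _).tendsto χ) (.of_forall fun _ => m _) (m _)
  let ν : C(Normalization 𝔭, X) := ⟨Quot.lift μ fun y y' e => hi ((hμ y).trans ((uniq (by
    have := lies y
    rwa [LiesOver, e] at this)).trans (hμ y').symm)), continuous_quot_lift _ c⟩
  refine ⟨ν, ⟨fun y => (hμ y).symm ▸ lies y, Subset.antisymm ?_ fun z h => ?_⟩, ?_⟩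
  · rintro _ ⟨⟨y⟩, rfl⟩
    exact mem_of_eq_of_mem (hμ y) (pt_mem hh y)
  · obtain ⟨y, rfl⟩ := surj h
    exact ⟨Quot.mk _ y, hμ y⟩
  rintro ⟨i, χ⟩
  obtain ⟨s, g, h1, h2⟩ := noether hinf i.2
  obtain ⟨D, _, _, _, _, _, _, _, π, y, w, rfl, h3⟩ := cut _ h1 h2 χ
  let j : C(Pt D, Normalization 𝔭) := ⟨fun y => Quot.mk _ ⟨i, y.v.comp π⟩,
    continuous_quot_mk.comp (continuous_sigmaMk.comp (continuous_induced_rng.2
      (continuous_pi fun b => cont_v (π b))))⟩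
  refine (curve hp hV hi hΦ (ν.comp j) (ρ := fun k => π (inc 𝔭 i (crd 𝔭 k i))) (i := i)
    (by rw [crd_self i.2, map_one, map_one]) (fun y => m ⟨i, y.v.comp π⟩) (fun a b e => ?_)
    y).mono ?_
  · obtain ⟨c, e⟩ := (Projectivization.mk_eq_mk_iff' ℂ _ _ _ _).1
      ((hμ _).symm.trans ((congrArg Φ e).trans (hμ _)))
    have e1 := congrFun e i
    rw [Pi.smul_apply, hc_self ⟨i, b.v.comp π⟩, hc_self ⟨i, a.v.comp π⟩, smul_eq_mul,
      mul_one] at e1
    rw [e1, one_smul] at e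
    obtain ⟨P, hP⟩ := crd_surj (g w)
    have k : ∀ a : Pt D, a.t = aeval (hc ⟨i, a.v.comp π⟩) P := fun a => by
      rw [Pt.t, h3, AlgHom.comp_apply, ← hP]
      exact comp_aeval_apply _ ((a.v.comp π).comp (inc 𝔭 i)) P
    rw [k, k, e]
  · rintro _ ⟨⟨γ⟩, rfl⟩
    exact ⟨FundamentalGroup.map j y (FundamentalGroup.fromPath (.mk γ)), rfl⟩

end Vale.Agent.P300LS
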