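import Vale.Agent.P300LS.Cur
import Mathlib.RingTheory.DedekindDomain.IntegralClosure
import Mathlib.RingTheory.IntegralClosure.GoingDown
import Mathlib.RingTheory.NoetherNormalization
import Mathlib.RingTheory.MvPolynomial.Homogeneous
import Mathlib.RingTheory.Polynomial.UniqueFactorization
import Mathlib.Algebra.Ring.GeomSum

/-!
P300L : finiteness of the normalisation, curves through a point, homogeneous polynomials
-/

open Set Function MvPolynomial
open scoped Polynomial

noncomputable section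

namespace Vale.Agent.P300LS

theorem fin_of {A B F : Type} [CommRing A] [IsDomain A] [CharZero A] [IsIntegrallyClosed A]
    [IsNoetherianRing A] [CommRing B] [Field F] [Algebra A B] [Algebra B F] [Algebra A F]
    [IsScalarTower A B F] [FaithfulSMul A F] [FaithfulSMul B F] [Algebra.IsIntegral A B]
    {S : Set F} [Finite S] (hS : S ⊆ range (algebraMap B F))
    (hB : ∀ L : Subfield F, range (algebraMap A F) ⊆ L → S ⊆ L → ∀ b, algebraMap B F b ∈ L) :
    Module.Finite A B := by
  let _ := FractionRing.liftAlgebra A F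
  have i : ∀ b, IsIntegral A (algebraMap B F b) := fun b =>
    (Algebra.IsIntegral.isIntegral b).algebraMap
  let L := IntermediateField.adjoin (FractionRing A) S
  have : FiniteDimensional (FractionRing A) L := IntermediateField.finiteDimensional_adjoin
    fun x hx => by
      obtain ⟨b, rfl⟩ := hS hx
      exact (i b).tower_top
  have := IsIntegralClosure.finite A (FractionRing A) L (integralClosure A L)
  have m : ∀ b, algebraMap B F b ∈ L := hB L.toSubfield (by
    rintro _ ⟨a, rfl⟩
    rw [IsScalarTower.algebraMap_apply A (FractionRing A) F]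
    exact L.algebraMap_mem _) (IntermediateField.subset_adjoin _ _)
  have : IsScalarTower A L F := .of_algebraMap_eq fun _ => rfl
  let j : B →ₗ[A] integralClosure A L :=
    { toFun := fun b => ⟨⟨_, m b⟩, (isIntegral_algebraMap_iff (algebraMap L F).injective).1 (i b)⟩
      map_add' := fun a b => Subtype.ext (Subtype.ext (map_add _ a b))
      map_smul' := fun a b => Subtype.ext (Subtype.ext ((IsScalarTower.toAlgHom A B F).toLinearMap.map_smul a b)) }
  exact Module.Finite.of_injective j fun a b h => FaithfulSMul.algebraMap_injective B F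
    (congrArg (fun x : integralClosure A L => (x.1 : F)) h)

theorem cut {B : Type} [CommRing B] [IsDomain B] [Algebra ℂ B] {s : ℕ}
    (g : MvPolynomial (Fin (s + 1)) ℂ →ₐ[ℂ] B) (hg : Injective g) (hf : g.Finite)
    (χ : B →ₐ[ℂ] ℂ) : ∃ (D : Type) (_ : CommRing D) (_ : IsDomain D) (_ : Algebra ℂ D)
      (_ : Algebra ℂ[X] D) (_ : IsScalarTower ℂ ℂ[X] D) (_ : Module.Finite ℂ[X] D)
      (_ : FaithfulSMul ℂ[X] D) (π : B →ₐ[ℂ] D) (y : Pt D) (w : MvPolynomial (Fin (s + 1)) ℂ),
      y.v.comp π = χ ∧ algebraMap ℂ[X] D Polynomial.X = π (g w) := by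
  let _ := g.toRingHom.toAlgebra
  have : Module.Finite (MvPolynomial (Fin (s + 1)) ℂ) B := hf
  have := (faithfulSMul_iff_algebraMap_injective (MvPolynomial (Fin (s + 1)) ℂ) B).2 hg
  let ρ : MvPolynomial (Fin (s + 1)) ℂ →ₐ[ℂ] ℂ[X] := aeval fun j =>
    Polynomial.C (χ (g (X j))) + if j = 0 then Polynomial.X else 0
  have := RingHom.ker_isPrime ρ
  have := RingHom.ker_isPrime χ
  have e : (Polynomial.aeval 0).comp ρ = χ.comp g := algHom_ext fun j => by
    simp only [ρ, AlgHom.comp_apply, aeval_X]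
    split_ifs <;> simp
  obtain ⟨q, h1, h2, h3⟩ := (RingHom.ker χ).exists_ideal_le_liesOver_of_le (p := RingHom.ker ρ)
    (q := (RingHom.ker χ).under _) fun w hw => (AlgHom.congr_fun e w).symm.trans
      ((congrArg (Polynomial.aeval 0) hw).trans (map_zero _))
  have k : ∀ w, Ideal.Quotient.mk q (g w) = 0 ↔ ρ w = 0 := fun w =>
    Ideal.Quotient.eq_zero_iff_mem.trans (SetLike.ext_iff.1 h3.over w).symm
  let w : MvPolynomial (Fin (s + 1)) ℂ := X 0 - C (χ (g (X 0)))
  have hw : ρ w = Polynomial.X := by simp [ρ, w]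
  let ι : ℂ[X] →ₐ[ℂ] B ⧸ q := Polynomial.aeval (Ideal.Quotient.mk q (g w))
  have k1 : ∀ p, ρ (Polynomial.aeval w p) = p := fun p => by
    rw [← Polynomial.aeval_algHom_apply, hw, Polynomial.aeval_X_left_apply]
  have k2 : ∀ p, ι p = Ideal.Quotient.mk q (g (Polynomial.aeval w p)) := fun p =>
    Polynomial.aeval_algHom_apply ((Ideal.Quotient.mkₐ ℂ q).comp g) w p
  have k3 : ι.comp ρ = (Ideal.Quotient.mkₐ ℂ q).comp g := AlgHom.ext fun v => by
    rw [AlgHom.comp_apply, k2, ← sub_eq_zero]
    exact (map_sub ((Ideal.Quotient.mkₐ ℂ q).comp g) _ _).symm.trans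
      ((k _).2 (by rw [map_sub, k1, sub_self]))
  let _ := ι.toRingHom.toAlgebra
  exact ⟨B ⧸ q, _, inferInstance, _, _, .of_algHom ι, AlgHom.Finite.of_comp_finite (f := ρ) (g := ι)
    (k3 ▸ (AlgHom.Finite.of_surjective _ (Ideal.Quotient.mkₐ_surjective ℂ q)).comp hf),
    (faithfulSMul_iff_algebraMap_injective _ _).2 ((injective_iff_map_eq_zero ι).2 fun p hp =>
      (k1 p).symm.trans ((k _).1 ((k2 p).symm.trans hp))), Ideal.Quotient.mkₐ ℂ q,
    Ideal.Quotient.liftₐ q χ h1, w, Ideal.Quotient.liftₐ_comp _ _ _, Polynomial.aeval_X _⟩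

variable {σ S : Type} [CommRing S] [Algebra ℂ S]

theorem hom_mul {P : MvPolynomial σ ℂ} {d : ℕ} (hP : P.IsHomogeneous d) (c : S) (v : σ → S) :
    aeval (fun j => c * v j) P = c ^ d * aeval v P := by
  simp only [aeval_def, eval₂_eq, Finset.mul_sum]
  refine Finset.sum_congr rfl fun m hm => ?_
  rw [hP.degree_eq_sum_deg_support hm]
  simp only [mul_pow, Finset.prod_mul_distrib, Finset.prod_pow_eq_pow_sum]
  ring

theorem homog (Q : MvPolynomial σ ℂ) (i : σ) :
    ∃ (m : ℕ) (P : MvPolynomial σ ℂ), P.IsHomogeneous m ∧ X i - 1 ∣ P - Q := by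
  refine ⟨Q.totalDegree, ∑ d ∈ Finset.range (Q.totalDegree + 1),
    X i ^ (Q.totalDegree - d) * homogeneousComponent d Q, IsHomogeneous.sum _ _ _ fun d hd => ?_, ?_⟩
  · have := ((isHomogeneous_X ℂ i).pow (Q.totalDegree - d)).mul
      (homogeneousComponent_isHomogeneous d Q)
    rwa [one_mul, Nat.sub_add_cancel (Finset.mem_range_succ_iff.1 hd)] at this
  · conv_rhs => rhs; rw [← Q.sum_homogeneousComponent]
    rw [← Finset.sum_sub_distrib]
    refine Finset.dvd_sum fun d _ => ?_
    rw [← sub_one_mul]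
    exact (sub_one_dvd_pow_sub_one _ _).mul_right _

theorem aeval_eq {P Q : MvPolynomial σ ℂ} {i : σ} (h : X i - 1 ∣ P - Q) {v : σ → S}
    (hv : v i = 1) : aeval v P = aeval v Q := by
  obtain ⟨c, hc⟩ := h
  rw [← sub_eq_zero, ← map_sub, hc, map_mul, map_sub, aeval_X, hv, map_one, sub_self, zero_mul]

end Vale.Agent.P300LS
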