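import Vale.Agent.P300LS.Stmt
import Mathlib.Analysis.Calculus.InverseFunctionTheorem.ContDiff
import Mathlib.Geometry.Manifold.MFDeriv.Basic
import Mathlib.LinearAlgebra.Projectivization.Basic
import Mathlib.Topology.Algebra.Module.FiniteDimension

/-!
P300L : maps into an embedded projective manifold
-/

open scoped Manifold ContDiff Topology LinearAlgebra.Projectivization
open Filter Set Function

namespace Vale.Agent.P300LS

open P300

theorem linv {E F : Type*} [NormedAddCommGroup E] [NormedSpace ℂ E] [CompleteSpace E]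
    [NormedAddCommGroup F] [NormedSpace ℂ F] [FiniteDimensional ℂ F] {G : E → F} {x : E}
    {G' : E →L[ℂ] F} (hG : ContDiffAt ℂ ω G x) (hd : HasFDerivAt G G' x)
    (hi : ∀ v, G' v = 0 → v = 0) :
    ∃ Ψ : F → E, ContDiffAt ℂ ω Ψ (G x) ∧ ∀ᶠ y in 𝓝 x, Ψ (G y) = y := by
  obtain ⟨L, hL⟩ := (G' : E →ₗ[ℂ] F).exists_leftInverse_of_injective
    (LinearMap.ker_eq_bot'.2 hi)
  have h1 : ContDiffAt ℂ ω (fun y => L.toContinuousLinearMap (G y)) x :=
    L.toContinuousLinearMap.contDiff.contDiffAt.comp x hG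
  have h2 : HasFDerivAt (fun y => L.toContinuousLinearMap (G y))
      (ContinuousLinearEquiv.refl ℂ E : E →L[ℂ] E) x :=
    (L.toContinuousLinearMap.hasFDerivAt.comp x hd).congr_fderiv
      (ContinuousLinearMap.ext fun v => LinearMap.congr_fun hL v)
  exact ⟨fun w => h1.localInverse h2 (by simp) (L.toContinuousLinearMap w),
    (h1.to_localInverse h2 (by simp)).comp (G x) L.toContinuousLinearMap.contDiff.contDiffAt,
    (h1.hasStrictFDerivAt' h2 (by simp)).eventually_left_inverse⟩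

variable {n : Type} {v u : n → ℂ} {z : ℙ ℂ (n → ℂ)}

theorem mem_mk (hu : u ≠ 0) : v ∈ (Projectivization.mk ℂ u hu).submodule ↔ ∃ c : ℂ, c • u = v := by
  rw [Projectivization.submodule_mk, Submodule.mem_span_singleton]

theorem eq_mk (hv : v ≠ 0) (h : v ∈ z.submodule) : z = Projectivization.mk ℂ v hv := by
  rw [← z.mk_rep, mem_mk] at h
  exact z.mk_rep.symm.trans ((Projectivization.mk_eq_mk_iff' ℂ _ _ hv _).2 h).symm

variable {E : Type} [NormedAddCommGroup E] [NormedSpace ℂ E] [Fintype n]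
  {X : Type} [TopologicalSpace X] [ChartedSpace E X] {Φ : X → ℙ ℂ (n → ℂ)}
  {α : Type} {l : Filter α} {γ : α → n → ℂ} {f : α → X}

theorem clu (hΦ : Final.IsProjectiveImmersion E Φ) (hγ : Tendsto γ l (𝓝 v))
    (h : ∀ᶠ a in l, γ a ∈ (Φ (f a)).submodule) {x : X} (hx : MapClusterPt x l f) :
    v ∈ (Φ x).submodule := by
  obtain ⟨U, hU, hf⟩ := mapClusterPt_iff_ultrafilter.1 hx
  obtain ⟨W, s, xW, ⟨oW, hs⟩, hm, -⟩ := hΦ x
  obtain ⟨s0, e⟩ := hm x xW
  obtain ⟨j, hj⟩ := ne_iff.1 s0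
  have t := tendsto_pi_nhds.1 ((hs.contMDiffAt (oW.mem_nhds xW)).continuousAt.tendsto.comp hf)
  have t' := tendsto_pi_nhds.1 (hγ.mono_left hU)
  rw [e, mem_mk]
  refine ⟨v j / s x j, funext fun i => ?_⟩
  rw [Pi.smul_apply, smul_eq_mul, div_mul_eq_mul_div, div_eq_iff hj]
  refine tendsto_nhds_unique_of_eventuallyEq ((t' j).mul (t i)) ((t' i).mul (t j)) ?_
  filter_upwards [hU h, hf (oW.mem_nhds xW)] with a h1 h2
  obtain ⟨h3, h4⟩ := hm _ h2
  obtain ⟨c, hc⟩ := (mem_mk h3).1 (h4 ▸ h1)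
  simp only [← hc, Pi.smul_apply, smul_eq_mul, comp_apply]
  ring

variable [CompactSpace X]

theorem lim_pt (hi : Injective Φ) (hΦ : Final.IsProjectiveImmersion E Φ) (hv : v ≠ 0)
    (hγ : Tendsto γ l (𝓝 v)) (h : ∀ᶠ a in l, γ a ∈ (Φ (f a)).submodule) {x : X}
    (hx : v ∈ (Φ x).submodule) : Tendsto f l (𝓝 x) :=
  tendsto_nhds_of_unique_mapClusterPt fun _ hy =>
    hi ((eq_mk hv (clu hΦ hγ h hy)).trans (eq_mk hv hx).symm)

theorem ex_pt [l.NeBot] (hΦ : Final.IsProjectiveImmersion E Φ) (hγ : Tendsto γ l (𝓝 v))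
    (h : ∀ᶠ a in l, γ a ∈ (Φ (f a)).submodule) : ∃ x, v ∈ (Φ x).submodule :=
  let ⟨x, hx⟩ := exists_clusterPt_of_compactSpace (map f l)
  ⟨x, clu hΦ hγ h hx⟩

theorem hol_pt [CompleteSpace E] (hi : Injective Φ) (hΦ : Final.IsProjectiveImmersion E Φ)
    {γ : ℂ → n → ℂ} {f : ℂ → X} {a : ℂ} (hv : γ a ≠ 0) (hγ : ContDiffAt ℂ ω γ a)
    (h : ∀ᶠ b in 𝓝 a, γ b ∈ (Φ (f b)).submodule) : ContMDiffAt 𝓘(ℂ) 𝓘(ℂ, E) ω f a := by
  have c : ContinuousAt f a := lim_pt hi hΦ hv hγ.continuousAt h h.self_of_nhds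
  obtain ⟨W, s, xW, ⟨oW, hs⟩, hm, him⟩ := hΦ (f a)
  obtain ⟨j, hj⟩ := ne_iff.1 hv
  have s1 := hs.contMDiffAt (oW.mem_nhds xW)
  set e := extChartAt 𝓘(ℂ, E) (f a) with he
  have ea : e.symm (e (f a)) = f a := extChartAt_to_inv _
  have s2 : ContDiffAt ℂ ω (s ∘ e.symm) (e (f a)) := by
    simpa [contDiffWithinAt_univ, chartAt_self_eq, he] using (contMDiffAt_iff.1 s1).2
  have s3 : ∀ w, Final.differential E s (f a) w = fderiv ℂ (s ∘ e.symm) (e (f a)) w := fun w => by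
    rw [Final.differential, (s1.mdifferentiableAt (by simp)).mfderiv]
    simp [writtenInExtChartAt, he, chartAt_self_eq]
    rfl
  have k : ∀ᶠ b in 𝓝 a, s (f b) j ≠ 0 ∧ (s (f b) j)⁻¹ • s (f b) = (γ b j)⁻¹ • γ b := by
    filter_upwards [h, c (oW.mem_nhds xW),
      ((continuous_apply j).continuousAt.comp hγ.continuousAt).eventually_ne hj] with b h1 h2 h3
    obtain ⟨h4, h5⟩ := hm _ h2
    obtain ⟨c, hc⟩ := (mem_mk h4).1 (h5 ▸ h1)
    rw [comp_apply, ← hc, Pi.smul_apply, smul_eq_mul, Pi.zero_apply, mul_ne_zero_iff] at h3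
    refine ⟨h3.2, ?_⟩
    rw [← hc, Pi.smul_apply, smul_eq_mul, smul_smul, mul_inv_rev, inv_mul_cancel_right₀ h3.1]
  have j0 : (s ∘ e.symm) (e (f a)) j ≠ 0 := by
    rw [comp_apply, ea]
    exact k.self_of_nhds.1
  have s4 : ContDiffAt ℂ ω (fun w => ((s ∘ e.symm) w j)⁻¹) (e (f a)) :=
    (contDiffAt_pi.1 s2 j).inv j0
  obtain ⟨Ψ, h1, h2⟩ := linv (s4.smul s2) ((s4.differentiableAt (by simp)).hasFDerivAt.smul
    (s2.differentiableAt (by simp)).hasFDerivAt) fun w hw => him _ xW w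
      (-((s ∘ e.symm) (e (f a)) j * fderiv ℂ (fun w => ((s ∘ e.symm) w j)⁻¹) (e (f a)) w)) (by
      rw [add_apply, smul_apply,
        ContinuousLinearMap.smulRight_apply, add_eq_zero_iff_eq_neg, inv_smul_eq_iff₀ j0] at hw
      rw [s3, hw, smul_neg, smul_smul, neg_smul, comp_apply, ea])
  refine contMDiffAt_iff_target.2 ⟨c, ContDiffAt.contMDiffAt ?_⟩
  have k2 : ∀ᶠ b in 𝓝 a, ((s ∘ e.symm) (e (f b)) j)⁻¹ • (s ∘ e.symm) (e (f b)) =
      (γ b j)⁻¹ • γ b := by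
    filter_upwards [k, c (extChartAt_source_mem_nhds (I := 𝓘(ℂ, E)) (f a))] with b h3 h4
    rw [comp_apply, e.left_inv h4, h3.2]
  refine ((k2.self_of_nhds ▸ h1 : ContDiffAt ℂ ω Ψ ((γ a j)⁻¹ • γ a)).comp a (((contDiffAt_pi.1 hγ j).inv hj).smul hγ)).congr_of_eventuallyEq ?_
  filter_upwards [k2, ((continuousAt_extChartAt (I := 𝓘(ℂ, E)) (f a)).comp c).eventually h2]
    with b h3 h4
  exact h4.symm.trans (congrArg Ψ h3)

end Vale.Agent.P300LS
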