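import Vale.Agent.P300LS.Pui
import Vale.Agent.P300LS.Emb
import Mathlib.RingTheory.Ideal.GoingUp
import Mathlib.FieldTheory.Minpoly.IsIntegrallyClosed
import Mathlib.Analysis.Complex.Polynomial.Basic
import Mathlib.RingTheory.Polynomial.RationalRoot
import Mathlib.Analysis.Calculus.ContDiff.Polynomial
import Mathlib.Analysis.Calculus.Deriv.Prod

/-!
P300L : the complex points of an affine curve as a branched covering of the line
-/

open scoped Topology ContDiff NNReal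
open Filter Set Metric Polynomial

noncomputable section

namespace Vale.Agent.P300LS

theorem ext_hom {A B : Type*} [CommRing A] [CommRing B] [Algebra ℂ A] [Algebra ℂ B]
    (f : A →ₐ[ℂ] B) (hf : f.toRingHom.IsIntegral) (φ : A →ₐ[ℂ] ℂ) (h : ∀ a, f a = 0 → φ a = 0) :
    ∃ χ : B →ₐ[ℂ] ℂ, ∀ a, χ (f a) = φ a := by
  let _ := f.toRingHom.toAlgebra
  have : Algebra.IsIntegral A B := ⟨hf⟩
  have := RingHom.ker_isMaximal_of_surjective φ.toRingHom fun c => ⟨_, φ.commutes c⟩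
  obtain ⟨Q, hQ, e⟩ := Ideal.exists_ideal_over_maximal_of_isIntegral (S := B)
    (RingHom.ker φ.toRingHom) h
  have k : ∀ a, Ideal.Quotient.mk Q (f a) = algebraMap ℂ _ (φ a) := fun a => by
    have : a - algebraMap ℂ A (φ a) ∈ Q.comap (algebraMap A B) := by
      rw [e, RingHom.mem_ker]
      simp
    rw [← Ideal.Quotient.mk_algebraMap, Ideal.Quotient.eq, ← f.commutes, ← map_sub]
    exact this
  have : Algebra.IsIntegral ℂ (B ⧸ Q) := ⟨fun x => by
    obtain ⟨b, rfl⟩ := Ideal.Quotient.mk_surjective x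
    obtain ⟨p, hp, e⟩ := hf b
    refine ⟨p.map φ.toRingHom, hp.map _, ?_⟩
    rw [eval₂_map, show (algebraMap ℂ (B ⧸ Q)).comp φ.toRingHom =
      (Ideal.Quotient.mk Q).comp f.toRingHom from RingHom.ext fun a => (k a).symm, ← hom_eval₂, e,
      map_zero]⟩
  let u := AlgEquiv.ofBijective (Algebra.ofId ℂ (B ⧸ Q))
    (IsAlgClosed.algebraMap_bijective_of_isIntegral (k := ℂ))
  exact ⟨u.symm.toAlgHom.comp (Ideal.Quotient.mkₐ ℂ Q), fun a =>
    (congrArg u.symm (k a)).trans (u.symm.commutes _)⟩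

theorem small_root {P : ℂ[X]} (hP : P.Monic) {c : ℝ≥0} (h : ‖P.eval 0‖₊ < c ^ P.natDegree) :
    ∃ z, P.eval z = 0 ∧ ‖z‖₊ ≤ c := by
  by_contra n
  push Not at n
  have s := IsAlgClosed.splits P
  rw [s.eval_eq_prod_roots_of_monic hP, s.natDegree_eq_card_roots, ← nnnormHom_apply,
    map_multiset_prod, Multiset.map_map, ← Multiset.card_map] at h
  refine h.not_ge (Multiset.pow_card_le_prod fun x hx => ?_)
  obtain ⟨z, hz, rfl⟩ := Multiset.mem_map.1 hx
  simpa using (n z (isRoot_of_mem_roots hz)).le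

theorem simple_root {P : ℂ[X][X]} {t z : ℂ} (h : eval₂ (evalRingHom t) z P = 0)
    (h' : eval₂ (evalRingHom t) z (derivative P) ≠ 0) : ∃ ψ : ℂ → ℂ, ContDiffAt ℂ ω ψ t ∧
      ∀ᶠ q : ℂ × ℂ in 𝓝 (t, z), eval₂ (evalRingHom q.1) q.2 P = 0 → q.2 = ψ q.1 := by
  have c : ContDiff ℂ ω fun q : ℂ × ℂ => eval₂ (evalRingHom q.1) q.2 P := by
    simp only [eval₂_eq_sum_range, coe_evalRingHom]
    exact ContDiff.sum fun i _ =>
      (((P.coeff i).contDiff_aeval ω).comp contDiff_fst).mul (contDiff_snd.pow i)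
  have d := (c.differentiable (by simp) (t, z)).hasFDerivAt
  have e := (d.comp_hasDerivAt z (HasDerivAt.prodMk (hasDerivAt_const z t) (hasDerivAt_id z))).unique
    (((P.map (evalRingHom t)).hasDerivAt z).congr_of_eventuallyEq
      (.of_forall fun y => (eval_map _ _).symm))
  rw [derivative_map, eval_map] at e
  obtain ⟨Ψ, h1, h2⟩ := linv (contDiff_fst.prodMk c).contDiffAt (hasFDerivAt_fst.prodMk d)
    fun v hv => by
    obtain ⟨a, b⟩ := v
    obtain ⟨rfl, hb⟩ : a = 0 ∧ fderiv ℂ _ (t, z) (a, b) = 0 := Prod.mk_eq_zero.1 hv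
    rw [show ((0 : ℂ), b) = b • ((0 : ℂ), (1 : ℂ)) by simp, map_smul, e, smul_eq_mul,
      mul_eq_zero] at hb
    rw [hb.resolve_right h', Prod.mk_zero_zero]
  simp only [h] at h1
  exact ⟨fun s => (Ψ (s, 0)).2, (h1.comp t (contDiffAt_id.prodMk contDiffAt_const)).snd,
    h2.mono fun q hq h0 => (congrArg Prod.snd (h0 ▸ hq)).symm⟩

/-- the complex points of `D` -/
def Pt (D : Type) [CommRing D] [Algebra ℂ D] : Type := D →ₐ[ℂ] ℂ

variable {D : Type} [CommRing D] [Algebra ℂ D]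

/-- the evaluation at a point -/
def Pt.v (χ : Pt D) : D →ₐ[ℂ] ℂ := χ

instance : TopologicalSpace (Pt D) := .induced (fun χ b => χ.v b) Pi.topologicalSpace

theorem tendsto_pt {α : Type*} {l : Filter α} {δ : α → Pt D} {χ : Pt D} :
    Tendsto δ l (𝓝 χ) ↔ ∀ b, Tendsto (fun a => (δ a).v b) l (𝓝 (χ.v b)) := by
  rw [nhds_induced, tendsto_comap_iff, tendsto_pi_nhds]
  rfl

theorem cont_v (b : D) : Continuous fun χ : Pt D => χ.v b :=
  (continuous_apply b).comp continuous_induced_dom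

instance : T2Space (Pt D) := .of_injective_continuous (f := fun (χ : Pt D) b => χ.v b)
  (fun _ _ h => AlgHom.ext (congrFun h)) continuous_induced_dom

theorem lim_hom {α : Type*} {l : Filter α} [l.NeBot] {δ : α → Pt D}
    (h : ∀ b, ∃ c, Tendsto (fun a => (δ a).v b) l (𝓝 c)) : ∃ χ, Tendsto δ l (𝓝 χ) := by
  choose c hc using h
  have k : ∀ x, c (algebraMap ℂ D x) = x := fun x => tendsto_nhds_unique (hc _) (by simp)
  exact ⟨(
    { toFun := c
      commutes' := k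
      map_one' := by simpa using k 1
      map_zero' := by simpa using k 0
      map_mul' := fun a b => tendsto_nhds_unique (hc _) (by simpa using (hc a).mul (hc b))
      map_add' := fun a b => tendsto_nhds_unique (hc _) (by simpa using (hc a).add (hc b)) } :
    D →ₐ[ℂ] ℂ), tendsto_pt.2 hc⟩

variable [Algebra ℂ[X] D] [IsScalarTower ℂ ℂ[X] D]

/-- the projection to the line -/
def Pt.t (χ : Pt D) : ℂ := χ.v (algebraMap ℂ[X] D X)

theorem v_alg (χ : Pt D) (q : ℂ[X]) : χ.v (algebraMap ℂ[X] D q) = q.eval χ.t :=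
  AlgHom.congr_fun (Polynomial.algHom_ext (f := χ.v.comp (IsScalarTower.toAlgHom ℂ ℂ[X] D))
    (g := aeval χ.t) (aeval_X _).symm) q

theorem v_aeval (χ : Pt D) (b : D) (P : ℂ[X][X]) :
    χ.v (aeval b P) = eval₂ (evalRingHom χ.t) (χ.v b) P :=
  (hom_eval₂ P _ χ.v.toRingHom b).trans (congrArg (eval₂ · _ P) (RingHom.ext (v_alg χ)))

theorem v_root (χ : Pt D) (b : D) : eval₂ (evalRingHom χ.t) (χ.v b) (minpoly ℂ[X] b) = 0 := by
  rw [← v_aeval, minpoly.aeval, map_zero]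

theorem ext_gen {n : ℕ} {s : Fin n → D} (hs : Submodule.span ℂ[X] (range s) = ⊤) {χ χ' : Pt D}
    (h : χ.t = χ'.t) (h' : ∀ i, χ.v (s i) = χ'.v (s i)) : χ = χ' := by
  refine AlgHom.ext fun b => show χ.v b = χ'.v b from ?_
  refine Submodule.span_induction ?_ (by simp) (fun a b _ _ h1 h2 => by simp [h1, h2])
    (fun q a _ h1 => ?_) (hs.ge (Submodule.mem_top (x := b)))
  · rintro _ ⟨i, rfl⟩
    exact h' i
  · rw [Algebra.smul_def, map_mul, map_mul, v_alg, v_alg, h, h1]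

variable [Module.Finite ℂ[X] D]

omit [Algebra ℂ D] [IsScalarTower ℂ ℂ[X] D] in
theorem mon (b : D) : (minpoly ℂ[X] b).Monic := minpoly.monic (Algebra.IsIntegral.isIntegral b)

theorem bdd {α : Type*} {l : Filter α} {δ : α → Pt D} {t : ℂ}
    (h : Tendsto (fun a => (δ a).t) l (𝓝 t)) (b : D) : ∃ C, ∀ᶠ a in l, ‖(δ a).v b‖ ≤ C :=
  have c : Continuous fun t : ℂ => 1 + ∑ i ∈ Finset.range (minpoly ℂ[X] b).natDegree,
    ‖((minpoly ℂ[X] b).coeff i).eval t‖ := by fun_prop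
  ⟨_, (((c.tendsto t).comp h).eventually_le_const (lt_add_one _)).mono fun a ha =>
    (root_le (mon b) (v_root _ b)).trans ha⟩

theorem closed_t : IsClosedMap (Pt.t : Pt D → ℂ) :=
  (isProperMap_iff_ultrafilter_of_t2.2 ⟨cont_v _, fun U _ h => lim_hom (δ := id) fun b =>
    let ⟨C, hC⟩ := bdd h b
    let ⟨c, _, hc⟩ := (isCompact_closedBall (0 : ℂ) C).ultrafilter_le_nhds' (U.map fun y : Pt D => y.v b)
      (hC.mono fun _ => mem_closedBall_zero_iff.2)
    ⟨c, hc⟩⟩).isClosedMap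

theorem fin_t (t : ℂ) : ((Pt.t : Pt D → ℂ) ⁻¹' {t}).Finite := by
  obtain ⟨n, s, hs⟩ := Module.Finite.exists_fin (R := ℂ[X]) (M := D)
  refine Finite.of_injOn (f := fun χ i => χ.v (s i)) (fun χ h => ?_)
    (fun χ h χ' h' e => ext_gen hs (h.trans h'.symm) (congrFun e))
    (Finite.pi' fun i => finite_setOfPred_isRoot ((mon (s i)).map (evalRingHom t)).ne_zero)
  obtain rfl : χ.t = t := h
  exact fun i => (eval_map _ _).trans (v_root χ _)

variable [IsDomain D] [FaithfulSMul ℂ[X] D]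

theorem ex_root {b : D} {t z : ℂ} (h : eval₂ (evalRingHom t) z (minpoly ℂ[X] b) = 0) :
    ∃ χ : Pt D, χ.t = t ∧ χ.v b = z := by
  obtain ⟨χ, hχ⟩ := ext_hom ((aeval b : ℂ[X][X] →ₐ[ℂ[X]] D).restrictScalars ℂ)
    (RingHom.IsIntegral.tower_top C _ (by
      rw [show RingHom.comp _ C = algebraMap ℂ[X] D from RingHom.ext fun q => aeval_C b q]
      exact Algebra.IsIntegral.isIntegral)) (aevalTower (aeval t) z) fun P hP => by
    obtain ⟨Q, rfl⟩ := minpoly.isIntegrallyClosed_dvd (Algebra.IsIntegral.isIntegral b) hP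
    exact (map_mul _ _ _).trans (mul_eq_zero_of_left h _)
  exact ⟨χ, show χ _ = t by simpa using hχ (C X), show χ b = z by simpa using hχ X⟩

theorem open_t : IsOpenMap (Pt.t : Pt D → ℂ) := fun U hU => isOpen_iff_mem_nhds.2 <| by
  rintro _ ⟨χ, hχ, rfl⟩
  have k : ∀ y : Pt D, ∃ b, y ≠ χ → y.v b = 0 ∧ χ.v b ≠ 0 := fun y => by
    by_cases e : y = χ
    · exact ⟨0, fun n => (n e).elim⟩
    obtain ⟨b, hb⟩ := DFunLike.ne_iff.1 (show χ.v ≠ y.v from Ne.symm e)
    exact ⟨b - algebraMap ℂ D (y.v b), fun _ => by simpa [sub_eq_zero] using hb⟩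
  choose β hβ using k
  let F := ((fin_t χ.t).sdiff (t := {χ})).toFinset
  have c0 : χ.v (∏ y ∈ F, β y) ≠ 0 := by
    rw [map_prod]
    exact Finset.prod_ne_zero_iff.2 fun y hy => (hβ y ((Finite.mem_toFinset _).1 hy).2).2
  let b := ∏ y ∈ F, β y - algebraMap ℂ D (χ.v (∏ y ∈ F, β y))
  obtain ⟨c, c1, c2⟩ := exists_between (nnnorm_pos.2 c0)
  have h1 := (closed_t _ (hU.isClosed_compl.inter (isClosed_le (cont_v b).nnnorm
    (continuous_const (y := c))))).isOpen_compl.mem_nhds (x := χ.t) (by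
    rintro ⟨y, ⟨h1, h2⟩, h3⟩
    have n : y ≠ χ := fun e => h1 (e ▸ hχ)
    have : y.v (∏ y ∈ F, β y) = 0 := by
      rw [map_prod]
      exact Finset.prod_eq_zero ((Finite.mem_toFinset _).2 ⟨h3, n⟩) (hβ y n).1
    refine c2.not_ge ?_
    simpa only [b, map_sub, this, AlgHom.commutes, zero_sub, nnnorm_neg, mem_ofPred,
      Algebra.algebraMap_self, RingHom.id_apply] using h2)
  have h2 : ∀ᶠ t in 𝓝 χ.t, ‖((minpoly ℂ[X] b).coeff 0).eval t‖₊ <
      c ^ (minpoly ℂ[X] b).natDegree := by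
    refine (Polynomial.continuous _).nnnorm.continuousAt.eventually_lt continuousAt_const ?_
    have := v_root χ b
    rw [show χ.v b = 0 by simp [b], eval₂_at_zero, coe_evalRingHom] at this
    rw [this, nnnorm_zero]
    exact pow_pos c1 _
  filter_upwards [h1, h2] with t h3 h4
  obtain ⟨z, h5, h6⟩ := small_root ((mon b).map (evalRingHom t)) (c := c) (by
    rwa [(mon b).natDegree_map, eval_map, eval₂_at_zero])
  obtain ⟨y, rfl, rfl⟩ := ex_root ((eval_map _ _).symm.trans h5)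
  by_contra n
  exact h3 ⟨y, ⟨fun e => n ⟨y, e, rfl⟩, h6⟩, rfl⟩

theorem good (b : D) : ∃ h : ℂ[X], h ≠ 0 ∧ ∀ χ : Pt D, h.eval χ.t ≠ 0 →
    ∃ ψ : ℂ → ℂ, ContDiffAt ℂ ω ψ χ.t ∧ ∀ᶠ y in 𝓝 χ, y.v b = ψ y.t := by
  have i := Algebra.IsIntegral.isIntegral (R := ℂ[X]) b
  have n0 := (minpoly.natDegree_pos i).ne'
  obtain ⟨h, h0, c, hc⟩ := (Algebra.IsIntegral.isIntegral (R := ℂ[X])
    (aeval b (derivative (minpoly ℂ[X] b)))).isAlgebraic.exists_nonzero_dvd
    (mem_nonZeroDivisors_of_ne_zero fun e => (mon b).not_dvd_of_natDegree_lt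
      (fun e => n0 (derivative_eq_zero.1 e)) (natDegree_derivative_lt n0)
      (minpoly.isIntegrallyClosed_dvd i e))
  refine ⟨h, h0, fun χ hχ => ?_⟩
  rw [← v_alg, hc, map_mul, v_aeval] at hχ
  obtain ⟨ψ, h1, h2⟩ := simple_root (v_root χ b) (left_ne_zero_of_mul hχ)
  exact ⟨ψ, h1, ((((cont_v _).prodMk (cont_v b)).tendsto χ).eventually h2).mono
    fun y hy => hy (v_root y b)⟩

theorem cover : ∃ h : ℂ[X], h ≠ 0 ∧ IsCoveringMapOn (Pt.t : Pt D → ℂ) {t | h.eval t ≠ 0} ∧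
    ∀ χ : Pt D, h.eval χ.t ≠ 0 → ∀ b,
      ∃ ψ : ℂ → ℂ, ContDiffAt ℂ ω ψ χ.t ∧ ∀ᶠ y in 𝓝 χ, y.v b = ψ y.t := by
  obtain ⟨n, s, hs⟩ := Module.Finite.exists_fin (R := ℂ[X]) (M := D)
  choose h h0 hh using fun i => good (s i)
  have k : ∀ χ : Pt D, (∏ i, h i).eval χ.t ≠ 0 → ∀ i, (h i).eval χ.t ≠ 0 := fun χ e i =>
    Finset.prod_ne_zero_iff.1 (by rwa [eval_prod] at e) i (Finset.mem_univ i)
  refine ⟨∏ i, h i, Finset.prod_ne_zero_iff.2 fun i _ => h0 i,
    closed_t.isCoveringMapOn_of_isLocalHomeomorphOn (fun t _ => fin_t t)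
      ((isLocalHomeomorphOn_iff_isOpenEmbedding_restrict _).2 fun χ e => ?_), fun χ e b => ?_⟩
  · choose ψ _ hψ using fun i => hh i χ (k χ e i)
    refine ⟨_, interior_mem_nhds.2 (eventually_all.2 hψ), .of_continuous_injective_isOpenMap
      ((cont_v _).comp continuous_subtype_val) (fun y y' e => Subtype.ext (ext_gen hs e fun i => ?_))
      (open_t.domRestrict isOpen_interior)⟩
    exact (interior_subset y.2 i).trans ((congrArg _ e).trans (interior_subset y'.2 i).symm)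
  · refine Submodule.span_induction ?_ ⟨0, contDiffAt_const, by simp⟩ ?_ ?_
      (hs.ge (Submodule.mem_top (x := b)))
    · rintro _ ⟨i, rfl⟩
      exact hh i χ (k χ e i)
    · rintro a b - - ⟨ψ, h1, h2⟩ ⟨ψ', h3, h4⟩
      exact ⟨_, h1.add h3, (h2.and h4).mono fun y hy => by rw [map_add, hy.1, hy.2]⟩
    · rintro q a - ⟨ψ, h1, h2⟩
      exact ⟨_, (q.contDiff_aeval ω).contDiffAt.mul h1, h2.mono fun y hy => by
        rw [Algebra.smul_def, map_mul, v_alg, hy, coe_aeval_eq_eval]⟩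

end Vale.Agent.P300LS
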