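import Vale.Agent.P300.Final.DefsJ
import Mathlib.AlgebraicTopology.FundamentalGroupoid.FundamentalGroup
import Mathlib.RingTheory.IntegralClosure.IsIntegralClosure.Basic
import Mathlib.RingTheory.Localization.FractionRing
import Mathlib.RingTheory.Ideal.Quotient.Basic
import Mathlib.FieldTheory.IntermediateField.Adjoin.Defs

/-!
P300 : normalisation of a subvariety, large fundamental group, Stein manifolds

A closed irreducible subvariety `Z` of `ℙᴺ(ℂ)` is the zero set of a homogeneous prime ideal `𝔭`.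
Its normalisation is glued from the maximal spectra of the integral closures, in the function field
of `Z`, of the coordinate rings of the affine charts `Z ∩ {xᵢ ≠ 0}`.
-/

open scoped Manifold ContDiff LinearAlgebra.Projectivization

noncomputable section

namespace Vale.Agent.P300.Large

variable {N : ℕ} (𝔭 : Ideal (MvPolynomial (Fin (N + 1)) ℂ))

/-- The ideal `𝔭` is homogeneous: it contains the homogeneous components of its elements. -/
def IsHomogeneousIdeal : Prop :=
  ∀ P ∈ 𝔭, ∀ d, MvPolynomial.homogeneousComponent d P ∈ 𝔭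

/-- The zero set `Z ⊆ ℙᴺ(ℂ)` of the homogeneous ideal `𝔭`. -/
def zeroSet : Set (ℙ ℂ (Fin (N + 1) → ℂ)) := {z | ∀ P ∈ 𝔭, MvPolynomial.eval z.rep P = 0}

/-- The field of fractions of the homogeneous coordinate ring of `Z`. -/
abbrev Frac : Type := FractionRing (MvPolynomial (Fin (N + 1)) ℂ ⧸ 𝔭)

variable [𝔭.IsPrime]

/-- The rational function `xⱼ / xᵢ` on `Z`. -/
def ratio (j i : Fin (N + 1)) : Frac 𝔭 :=
  algebraMap _ (Frac 𝔭) (Ideal.Quotient.mk 𝔭 (MvPolynomial.X j)) /
    algebraMap _ (Frac 𝔭) (Ideal.Quotient.mk 𝔭 (MvPolynomial.X i))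

/-- The function field `ℂ(Z)`, generated by the `xⱼ / xᵢ`. -/
def functionField : IntermediateField ℂ (Frac 𝔭) :=
  IntermediateField.adjoin ℂ {f | ∃ j i, f = ratio 𝔭 j i}

/-- The coordinate ring `ℂ[x₀ / xᵢ, …, x_N / xᵢ]` of the affine chart `Z ∩ {xᵢ ≠ 0}`. -/
def coordRing (i : Fin (N + 1)) : Subalgebra ℂ (Frac 𝔭) :=
  Algebra.adjoin ℂ {f | ∃ j, f = ratio 𝔭 j i}

/-- The integral closure of the coordinate ring in the function field. -/
def normalRing (i : Fin (N + 1)) : Subalgebra ℂ (Frac 𝔭) :=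
  (integralClosure (coordRing 𝔭 i) (Frac 𝔭)).restrictScalars ℂ ⊓ (functionField 𝔭).toSubalgebra

/-- The complex points of the normalisation of the affine chart `Z ∩ {xᵢ ≠ 0}`. -/
def Chart (i : Fin (N + 1)) : Type := normalRing 𝔭 i →ₐ[ℂ] ℂ

/-- The value of a regular function at a point. -/
def Chart.val {i : Fin (N + 1)} (y : Chart 𝔭 i) (a : normalRing 𝔭 i) : ℂ :=
  (show normalRing 𝔭 i →ₐ[ℂ] ℂ from y) a

/-- The classical topology: the coarsest one for which all regular functions are continuous. -/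
instance (i : Fin (N + 1)) : TopologicalSpace (Chart 𝔭 i) :=
  TopologicalSpace.induced (Chart.val 𝔭) Pi.topologicalSpace

/-- The disjoint union of the (nonempty) charts. -/
abbrev Charts : Type := Σ i : {i // MvPolynomial.X i ∉ 𝔭}, Chart 𝔭 i

/-- The local ring at `y` with its evaluation map: the pairs `(f, f(y))` for the rational functions
`f = a / b` with `b(y) ≠ 0`. -/
def localRing (y : Charts 𝔭) : Set (Frac 𝔭 × ℂ) :=
  {q | ∃ a b : normalRing 𝔭 y.1, y.2.val 𝔭 b ≠ 0 ∧ q.1 * b = a ∧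
    q.2 * y.2.val 𝔭 b = y.2.val 𝔭 a}

/-- The normalisation `Zᵛ` of `Z`: points of two charts are glued if they have the same local
ring in the function field. -/
def Normalization : Type := Quot fun y y' : Charts 𝔭 => localRing 𝔭 y = localRing 𝔭 y'

/-- The classical topology of `Zᵛ`. -/
instance : TopologicalSpace (Normalization 𝔭) := instTopologicalSpaceQuot

/-- The point `y` of a chart lies over the point `z` of `ℙᴺ(ℂ)`: if `xᵢ(z) ≠ 0`, the functions
`xⱼ / xᵢ` are regular at `y` with the values `xⱼ(z) / xᵢ(z)`. -/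
def LiesOver (y : Charts 𝔭) (z : ℙ ℂ (Fin (N + 1) → ℂ)) : Prop :=
  ∀ j i, z.rep i ≠ 0 → (ratio 𝔭 j i, z.rep j / z.rep i) ∈ localRing 𝔭 y

/-- `ν : Zᵛ → X` is the normalisation map `Zᵛ → Z` followed by the inclusion of `Z` in `X`, for
`X` embedded in `ℙᴺ(ℂ)` by `Φ`. -/
def IsNormalizationMap {X : Type*} (Φ : X → ℙ ℂ (Fin (N + 1) → ℂ))
    (ν : Normalization 𝔭 → X) : Prop :=
  (∀ y : Charts 𝔭, LiesOver 𝔭 y (Φ (ν (Quot.mk _ y)))) ∧ Set.range (Φ ∘ ν) = zeroSet 𝔭

variable (E : Type*) [NormedAddCommGroup E] [NormedSpace ℂ E]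

/-- **Large fundamental group**: for every projective embedding `Φ` of `X` and every closed
irreducible subvariety `Z ⊆ X` of positive dimension (that is, with infinitely many points), the
image of `π₁(Zᵛ) → π₁(X)` is infinite, for every base point. -/
def HasLargeFundamentalGroup (X : Type*) [TopologicalSpace X] [ChartedSpace E X] : Prop :=
  ∀ (N : ℕ) (Φ : X → ℙ ℂ (Fin (N + 1) → ℂ)), Function.Injective Φ →
    Final.IsProjectiveImmersion E Φ →
    ∀ (𝔭 : Ideal (MvPolynomial (Fin (N + 1)) ℂ)) [𝔭.IsPrime], IsHomogeneousIdeal 𝔭 →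
      zeroSet 𝔭 ⊆ Set.range Φ → (zeroSet 𝔭).Infinite →
      ∃ ν : C(Normalization 𝔭, X), IsNormalizationMap 𝔭 Φ ν ∧
        ∀ z, (Set.range (FundamentalGroup.map ν z)).Infinite

/-- A complex manifold is Stein if it is holomorphically convex and its holomorphic functions
separate points and give local coordinates. -/
def IsStein (V : Type*) [TopologicalSpace V] [ChartedSpace E V] : Prop :=
  HolomorphicallyConvex E V ∧
    (∀ v w : V, v ≠ w → ∃ g : V → ℂ, ContMDiff 𝓘(ℂ, E) 𝓘(ℂ) ω g ∧ g v ≠ g w) ∧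
    ∀ v : V, ∃ G : V → E, ContMDiff 𝓘(ℂ, E) 𝓘(ℂ, E) ω G ∧
      IsLocalDiffeomorphAt 𝓘(ℂ, E) 𝓘(ℂ, E) ω G v

end Vale.Agent.P300.Large
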