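import Vale.Agent.P300LS.Alg

/-!
P300L : the points of the normalisation and their images in the projective space
-/

open Set Function MvPolynomial
open scoped LinearAlgebra.Projectivization

noncomputable section

namespace Vale.Agent.P300LS

open P300 P300.Large

variable {N : ℕ} {𝔭 : Ideal (MvPolynomial (Fin (N + 1)) ℂ)} [𝔭.IsPrime] {i j : Fin (N + 1)}

variable (𝔭) in
/-- the class of a polynomial -/
def xi : MvPolynomial (Fin (N + 1)) ℂ →ₐ[ℂ] Frac 𝔭 :=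
  (IsScalarTower.toAlgHom ℂ _ (Frac 𝔭)).comp (Ideal.Quotient.mkₐ ℂ 𝔭)

theorem xi_zero {P : MvPolynomial (Fin (N + 1)) ℂ} : xi 𝔭 P = 0 ↔ P ∈ 𝔭 :=
  (FaithfulSMul.algebraMap_eq_zero_iff (R := _ ⧸ 𝔭) (A := Frac 𝔭)).trans
    Ideal.Quotient.eq_zero_iff_mem

theorem ratio_eq : ratio 𝔭 j i = xi 𝔭 (X j) / xi 𝔭 (X i) := rfl

theorem coord_le : coordRing 𝔭 i ≤ normalRing 𝔭 i := fun x hx =>
  ⟨isIntegral_algebraMap (x := (⟨x, hx⟩ : coordRing 𝔭 i)), Algebra.adjoin_le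
    (S := (functionField 𝔭).toSubalgebra)
    (by rintro _ ⟨j, e⟩; exact IntermediateField.subset_adjoin _ _ ⟨j, i, e⟩) hx⟩

variable (𝔭) in
/-- the affine coordinates -/
def crd (j i : Fin (N + 1)) : coordRing 𝔭 i := ⟨ratio 𝔭 j i, Algebra.subset_adjoin ⟨j, rfl⟩⟩

variable (𝔭) in
/-- the inclusion of the coordinate ring -/
def inc (i : Fin (N + 1)) : coordRing 𝔭 i →ₐ[ℂ] normalRing 𝔭 i := Subalgebra.inclusion coord_le

theorem inc_int : (inc 𝔭 i).toRingHom.IsIntegral := fun b =>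
  let ⟨p, hp, e⟩ := b.2.1
  ⟨p, hp, Subtype.ext ((Polynomial.hom_eval₂ p _ (normalRing 𝔭 i).val.toRingHom b).trans e)⟩

theorem int_comp {A : Type} [CommRing A] [Algebra ℂ A] {g : A →ₐ[ℂ] coordRing 𝔭 i}
    (hg : g.toRingHom.IsIntegral) : ((inc 𝔭 i).comp g).toRingHom.IsIntegral :=
  hg.trans _ _ inc_int

theorem crd_val (P : MvPolynomial (Fin (N + 1)) ℂ) :
    (aeval (crd 𝔭 · i) P).1 = aeval (ratio 𝔭 · i) P :=
  comp_aeval_apply _ (coordRing 𝔭 i).val P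

theorem crd_surj : Surjective (aeval (R := ℂ) (crd 𝔭 · i)) := fun x => by
  obtain ⟨P, hP⟩ := (aeval_range (ratio 𝔭 · i)).ge
    (Algebra.adjoin_mono (by rintro _ ⟨j, e⟩; exact ⟨j, e.symm⟩) x.2)
  exact ⟨P, Subtype.ext ((crd_val P).trans hP)⟩

theorem crd_self (hi : X i ∉ 𝔭) : crd 𝔭 i i = 1 :=
  Subtype.ext (div_self (G₀ := Frac 𝔭) (xi_zero.not.2 hi))

theorem crd_zero (hi : X i ∉ 𝔭) {P : MvPolynomial (Fin (N + 1)) ℂ} {d : ℕ}
    (hP : P.IsHomogeneous d) : aeval (crd 𝔭 · i) P = 0 ↔ P ∈ 𝔭 := by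
  have h := xi_zero.not.2 hi
  have e : xi 𝔭 P = xi 𝔭 (X i) ^ d * aeval (ratio 𝔭 · i) P := by
    rw [← hom_mul hP]
    refine AlgHom.congr_fun ((aeval_unique _).trans (congrArg aeval (funext fun j => ?_))) P
    exact (mul_div_cancel₀ _ h).symm
  rw [← xi_zero, e, mul_eq_zero_iff_left (pow_ne_zero _ h), ← crd_val, ZeroMemClass.coe_eq_zero]

/-- the evaluation at a point of a chart -/
def ev (y : Charts 𝔭) : normalRing 𝔭 y.1 →ₐ[ℂ] ℂ := y.2

/-- the homogeneous coordinates of a point of a chart -/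
def hc (y : Charts 𝔭) (j : Fin (N + 1)) : ℂ := ev y (inc 𝔭 y.1 (crd 𝔭 j y.1))

theorem hc_self (y : Charts 𝔭) : hc y y.1 = 1 := by
  rw [hc, crd_self y.1.2, map_one, map_one]

theorem hc_ne (y : Charts 𝔭) : hc y ≠ 0 := fun e => one_ne_zero ((hc_self y).symm.trans
  (congrFun e _))

/-- the image of a point of a chart -/
def pt (y : Charts 𝔭) : ℙ ℂ (Fin (N + 1) → ℂ) := Projectivization.mk ℂ (hc y) (hc_ne y)

theorem pt_mem (h : IsHomogeneousIdeal 𝔭) (y : Charts 𝔭) : pt y ∈ zeroSet 𝔭 := fun P hP => by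
  obtain ⟨a, ha⟩ := Projectivization.exists_smul_eq_mk_rep ℂ _ (hc_ne y)
  rw [pt, ← ha, ← P.sum_homogeneousComponent, map_sum]
  refine Finset.sum_eq_zero fun d _ => (hom_mul (homogeneousComponent_isHomogeneous d P)
    (a : ℂ) (hc y)).trans (mul_eq_zero_of_right _ ?_)
  refine (comp_aeval_apply _ ((ev y).comp (inc 𝔭 y.1)) _).symm.trans ?_
  rw [(crd_zero y.1.2 (homogeneousComponent_isHomogeneous d P)).2 (h P hP d), map_zero]

theorem lies (y : Charts 𝔭) : LiesOver 𝔭 y (pt y) := fun j i hi => by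
  obtain ⟨a, ha⟩ := Projectivization.exists_smul_eq_mk_rep ℂ _ (hc_ne y)
  rw [pt, ← ha] at hi ⊢
  have h1 : hc y i ≠ 0 := right_ne_zero_of_mul hi
  have h2 : xi 𝔭 (X i) ≠ 0 := fun e => h1 (by
    rw [hc, show crd 𝔭 i y.1 = 0 from Subtype.ext ((congrArg (· / _) e).trans (zero_div _)),
      map_zero, map_zero])
  refine ⟨inc 𝔭 y.1 (crd 𝔭 j y.1), inc 𝔭 y.1 (crd 𝔭 i y.1), h1,
    div_mul_div_cancel₀ (G₀ := Frac 𝔭) h2, ?_⟩
  change (a * hc y j) / (a * hc y i) * hc y i = hc y j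
  rw [mul_div_mul_left _ _ a.ne_zero, div_mul_cancel₀ _ h1]

theorem func {y : Charts 𝔭} {f : Frac 𝔭} {c c' : ℂ} (h : (f, c) ∈ localRing 𝔭 y)
    (h' : (f, c') ∈ localRing 𝔭 y) : c = c' := by
  obtain ⟨a, b, h1, h2, h3⟩ := h
  obtain ⟨a', b', h4, h5, h6⟩ := h'
  have e : ev y (a * b') = ev y (a' * b) := congrArg _ (Subtype.ext (by
    rw [MulMemClass.coe_mul, MulMemClass.coe_mul, ← h2, ← h5, mul_right_comm]))
  rw [map_mul, map_mul] at e
  refine mul_right_cancel₀ h1 (mul_right_cancel₀ h4 ?_)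
  exact (congrArg (· * _) h3).trans (e.trans ((congrArg (· * _) h6.symm).trans
    (mul_right_comm _ _ _)))

theorem uniq {y : Charts 𝔭} {z : ℙ ℂ (Fin (N + 1) → ℂ)} (h : LiesOver 𝔭 y z) : z = pt y := by
  obtain ⟨i, hi⟩ := ne_iff.1 z.rep_nonzero
  have m : ∀ a : normalRing 𝔭 y.1, (a.1, ev y a) ∈ localRing 𝔭 y := fun a =>
    ⟨a, 1, (map_one (ev y)).trans_ne one_ne_zero, mul_one _,
      (congrArg _ (map_one (ev y))).trans (mul_one _)⟩
  have h1 : xi 𝔭 (X i) ≠ 0 := fun e => by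
    have := h i i hi
    rw [ratio_eq, e, zero_div, div_self hi] at this
    exact one_ne_zero ((func this (m 0)).trans (map_zero _))
  have h2 : z.rep y.1 ≠ 0 := fun e => by
    obtain ⟨a, b, h3, h4, h5⟩ := h y.1 i hi
    rw [e, zero_div, zero_mul] at h5
    have : b = a * inc 𝔭 y.1 (crd 𝔭 i y.1) := Subtype.ext (by
      have := xi_zero.not.2 y.1.2
      rw [MulMemClass.coe_mul, ← h4]
      change _ = xi 𝔭 (X y.1) / xi 𝔭 (X i) * _ * (xi 𝔭 (X i) / xi 𝔭 (X y.1))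
      field_simp)
    exact h3 ((congrArg (ev y) this).trans ((map_mul _ _ _).trans
      (mul_eq_zero_of_left h5.symm _)))
  refine z.mk_rep.symm.trans ((Projectivization.mk_eq_mk_iff' ℂ _ _ _ _).2
    ⟨z.rep y.1, funext fun j => ?_⟩)
  rw [Pi.smul_apply, hc, ← func (h j y.1 h2) (m (inc 𝔭 y.1 (crd 𝔭 j y.1))), smul_eq_mul,
    mul_div_cancel₀ _ h2]

theorem surj {z : ℙ ℂ (Fin (N + 1) → ℂ)} (h : z ∈ zeroSet 𝔭) : ∃ y : Charts 𝔭, pt y = z := by
  obtain ⟨i, hi⟩ := ne_iff.1 z.rep_nonzero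
  have h1 : X i ∉ 𝔭 := fun e => hi ((eval_X _).symm.trans (h _ e))
  have k : ∀ Q, aeval (crd 𝔭 · i) Q = 0 → aeval (fun j => (z.rep i)⁻¹ * z.rep j) Q = 0 :=
    fun Q hQ => by
    obtain ⟨m, P, h2, h3⟩ := homog Q i
    exact (aeval_eq h3 (v := fun j => (z.rep i)⁻¹ * z.rep j) (inv_mul_cancel₀ hi)).symm.trans
      ((hom_mul h2 _ _).trans (mul_eq_zero_of_right _ (h P ((crd_zero h1 h2).1
        ((aeval_eq h3 (v := (crd 𝔭 · i)) (crd_self h1)).trans hQ)))))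
  obtain ⟨χ, hχ⟩ := ext_hom _ (int_comp (g := aeval (crd 𝔭 · i))
    (RingHom.isIntegral_of_surjective _ crd_surj)) _ fun Q hQ => k Q
    ((map_eq_zero_iff (inc 𝔭 i) (Subalgebra.inclusion_injective coord_le)).1 hQ)
  have e : (z.rep i)⁻¹ • z.rep = hc ⟨⟨i, h1⟩, χ⟩ := funext fun j => by
    have := hχ (X j)
    rw [AlgHom.comp_apply, aeval_X, aeval_X] at this
    exact this.symm
  exact ⟨⟨⟨i, h1⟩, χ⟩, (eq_mk (hc_ne _) (e ▸ Submodule.smul_mem _ _ (by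
    rw [Projectivization.submodule_eq]
    exact Submodule.mem_span_singleton_self _))).symm⟩

/-- Noether normalisation of a chart -/
theorem noether (h : (zeroSet 𝔭).Infinite) (hi : X i ∉ 𝔭) :
    ∃ (s : ℕ) (g : MvPolynomial (Fin (s + 1)) ℂ →ₐ[ℂ] coordRing 𝔭 i),
      Injective ((inc 𝔭 i).comp g) ∧ ((inc 𝔭 i).comp g).Finite := by
  have : Algebra.FiniteType ℂ (coordRing 𝔭 i) := .of_surjective _ crd_surj
  obtain ⟨s, g, h1, h2⟩ := exists_finite_inj_algHom_of_fg ℂ (coordRing 𝔭 i)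
  have x0 := xi_zero.not.2 hi
  rcases s with _ | s
  · have : Algebra.IsIntegral ℂ (coordRing 𝔭 i) := ⟨by
      have := (RingHom.isIntegral_of_surjective C (C_surjective (Fin 0))).trans _ _ h2.to_isIntegral
      rwa [show RingHom.comp _ C = algebraMap ℂ (coordRing 𝔭 i) from RingHom.ext g.commutes]
        at this⟩
    choose c hc using fun j => (IsAlgClosed.algebraMap_bijective_of_isIntegral (k := ℂ)).2
      (crd 𝔭 j i)
    have k : ∀ z ∈ zeroSet 𝔭, z.rep i • c = z.rep := fun z hz => funext fun j => by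
      have := hz (X i * C (c j) - X j) (xi_zero.1 (by
        rw [map_sub, map_mul, show xi 𝔭 (C (c j)) = xi 𝔭 (X j) / xi 𝔭 (X i) from
          ((xi 𝔭).commutes _).trans (congrArg Subtype.val (hc j)), mul_div_cancel₀ _ x0, sub_self]))
      simpa [sub_eq_zero] using this
    refine (h (Subsingleton.finite fun z hz z' hz' => ?_)).elim
    have c0 : c ≠ 0 := fun e => z.rep_nonzero (by rw [← k z hz, e, smul_zero])
    have k2 : ∀ z ∈ zeroSet 𝔭, z = Projectivization.mk ℂ c c0 := fun z hz =>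
      z.mk_rep.symm.trans ((Projectivization.mk_eq_mk_iff' ℂ _ _ _ _).2 ⟨_, k z hz⟩)
    rw [k2 z hz, k2 z' hz']
  have h3 := (Subalgebra.inclusion_injective (coord_le (𝔭 := 𝔭) (i := i))).comp h1
  refine ⟨s, g, h3, ?_⟩
  let _ := ((inc 𝔭 i).comp g).toRingHom.toAlgebra
  let _ := ((normalRing 𝔭 i).val.comp ((inc 𝔭 i).comp g)).toRingHom.toAlgebra
  have : IsScalarTower (MvPolynomial (Fin (s + 1)) ℂ) (normalRing 𝔭 i) (Frac 𝔭) :=
    .of_algebraMap_eq fun _ => rfl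
  have := (faithfulSMul_iff_algebraMap_injective (MvPolynomial (Fin (s + 1)) ℂ) (Frac 𝔭)).2
    (Subtype.val_injective.comp h3)
  have : Algebra.IsIntegral (MvPolynomial (Fin (s + 1)) ℂ) (normalRing 𝔭 i) :=
    ⟨int_comp h2.to_isIntegral⟩
  refine fin_of (F := Frac 𝔭) (S := range (ratio 𝔭 · i)) (by
    rintro _ ⟨j, rfl⟩
    exact ⟨inc 𝔭 i (crd 𝔭 j i), rfl⟩) fun L h4 h5 b => ?_
  refine (IntermediateField.adjoin_le_iff (T := L.toIntermediateField fun c =>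
    h4 ⟨C c, ((normalRing 𝔭 i).val.comp ((inc 𝔭 i).comp g)).commutes c⟩)).2 ?_ b.2.2
  rintro _ ⟨j, k, rfl⟩
  rw [ratio_eq, ← div_div_div_cancel_right₀ x0]
  exact L.div_mem (h5 ⟨j, rfl⟩) (h5 ⟨k, rfl⟩)

end Vale.Agent.P300LS
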