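import Vale.Agent.P300LS.Top
import Mathlib.Analysis.Polynomial.CauchyBound
import Mathlib.Analysis.Meromorphic.Order
import Mathlib.Analysis.Complex.RemovableSingularity
import Mathlib.Analysis.SpecialFunctions.Complex.Log
import Mathlib.Analysis.Complex.Convex

/-!
P300L : Puiseux discs of a finite covering of a punctured disc
-/

open scoped Topology Real
open Filter Set Metric Complex Polynomial

namespace Vale.Agent.P300LS

theorem punct {r : ℝ} (hr : 0 < r) : IsPathConnected (ball (0 : ℂ) r \ {0}) := by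
  have e : ball (0 : ℂ) r \ {0} = exp '' {w | w.re < Real.log r} := by
    ext s
    refine ⟨fun h => ⟨log s, ?_, exp_log h.2⟩, ?_⟩
    · rw [mem_ofPred, log_re]
      exact Real.log_lt_log (norm_pos_iff.2 h.2) (mem_ball_zero_iff.1 h.1)
    · rintro ⟨w, h, rfl⟩
      exact ⟨by rw [mem_ball_zero_iff, norm_exp]; exact (Real.lt_log_iff_exp_lt hr).1 h,
        exp_ne_zero w⟩
  exact e ▸ ((convex_halfSpace_re_lt _).isPathConnected
    ⟨(Real.log r - 1 : ℝ), by simp⟩).image continuous_exp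

theorem pui {Y : Type} [TopologicalSpace Y] {τ : Y → ℂ} {Ω : Set ℂ} (hc : IsCoveringMapOn τ Ω)
    (hf : ∀ t, (τ ⁻¹' {t}).Finite) {m : ℂ → ℂ} {R : ℝ} (R0 : 0 < R)
    (hm : ∀ u, u ≠ 0 → ‖u‖ ≤ R → ContinuousAt m u ∧ m u ∈ Ω) :
    ∃ (A : Type) (_ : Finite A) (k : A → ℕ) (δ : A → ℂ → Y), (∀ a, k a ≠ 0) ∧
      (∀ a s, s ≠ 0 → ContinuousAt (δ a) s) ∧
      (∀ a s, s ≠ 0 → ‖s ^ k a‖ < R → τ (δ a s) = m (s ^ k a)) ∧
      ∀ y u, u ≠ 0 → ‖u‖ < R → τ y = m u → ∃ a s, s ^ k a = u ∧ δ a s = y := by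
  have h1 : ∀ w, ContinuousAt m (retr R (exp w)) ∧ m (retr R (exp w)) ∈ Ω := fun w =>
    hm _ (mul_ne_zero (ofReal_ne_zero.2 (div_pos R0 (lt_max_of_lt_left R0)).ne') (exp_ne_zero w))
      (mem_closedBall_zero_iff.1 (retr_mem R0 _))
  let φ : C(ℂ, ℂ) := ⟨fun w => m (retr R (exp w)), continuous_iff_continuousAt.2 fun w =>
    ContinuousAt.comp (f := fun w => retr R (exp w)) (h1 w).1
      ((retr_cont R0).comp continuous_exp).continuousAt⟩
  have ex := fun w y (h : τ y = φ w) => hc.existsUnique_continuousMap_lifts φ h fun w => (h1 w).2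
  let A := {L : C(ℂ, Y) // τ ∘ L = φ}
  have fA : Finite A := by
    have := (hf (φ 0)).to_subtype
    refine Finite.of_injective (fun L : A => (⟨L.1 0, congrFun L.2 0⟩ : τ ⁻¹' {φ 0}))
      fun L L' e => Subtype.ext ((ex 0 _ (congrFun L.2 0)).unique ⟨rfl, L.2⟩
        ⟨(congrArg Subtype.val e).symm, L'.2⟩)
  have pe : ∀ L : A, ∃ k : ℕ, k ≠ 0 ∧ ∀ w w', exp w = exp w' → L.1 (k * w) = L.1 (k * w') := by
    intro L
    obtain ⟨a, b, ab, e⟩ := (finite_univ (α := A)).exists_lt_map_eq_of_forall_mem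
      (f := fun n : ℕ => (⟨L.1.comp ⟨fun w => w + n * (2 * π * I), by fun_prop⟩, funext fun w =>
        (congrFun L.2 _).trans (congrArg (fun u => m (retr R u))
          (exp_periodic.nat_mul n w))⟩ : A)) fun _ => mem_univ _
    obtain ⟨k, rfl⟩ := Nat.exists_eq_add_of_lt ab
    have p : Function.Periodic L.1 ((k + 1 : ℕ) * (2 * π * I)) := fun w => by
      have := DFunLike.congr_fun (congrArg Subtype.val e) (w - a * (2 * π * I))
      simp only [ContinuousMap.comp_apply, ContinuousMap.coe_mk, sub_add_cancel] at this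
      rw [this]
      congr 1
      push_cast
      ring
    refine ⟨k + 1, k.succ_ne_zero, fun w w' h => ?_⟩
    obtain ⟨n, rfl⟩ := exp_eq_exp_iff_exists_int.1 h
    rw [← p.int_mul n (_ * w')]
    congr 1
    ring
  choose k k0 pe using pe
  refine ⟨A, fA, k, fun L s => L.1 (k L * log s), k0, fun L s hs => ?_, fun L s hs h => ?_,
    fun y u hu h e => ?_⟩
  · have c : ContinuousAt (fun z => L.1 (k L * (log s + log (z / s)))) s :=
      L.1.continuous.continuousAt.comp (continuousAt_const.mul (continuousAt_const.add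
        (ContinuousAt.comp (g := log) (continuousAt_clog (by simp [div_self hs])) (by fun_prop))))
    refine c.congr ?_
    filter_upwards [isOpen_ne.mem_nhds hs] with z hz
    exact pe L _ _ (by rw [exp_add, exp_log hs, exp_log hz, exp_log (div_ne_zero hz hs),
      mul_div_cancel₀ _ hs])
  · refine (congrFun L.2 _).trans ?_
    change m (retr R (exp _)) = _
    rw [exp_nat_mul, exp_log hs, retr_eq R0 (mem_ball_zero_iff.2 h)]
  · obtain ⟨L, ⟨h2, h3⟩, -⟩ := ex (log u) y (by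
      change _ = m (retr R (exp _))
      rw [exp_log hu, retr_eq R0 (mem_ball_zero_iff.2 h), e])
    have e2 : (k ⟨L, h3⟩ : ℂ) * (log u / k ⟨L, h3⟩) = log u :=
      mul_div_cancel₀ _ (Nat.cast_ne_zero.2 (k0 _))
    exact ⟨⟨L, h3⟩, exp (log u / k ⟨L, h3⟩), by rw [← exp_nat_mul, e2, exp_log hu],
      (pe ⟨L, h3⟩ _ _ (exp_log (exp_ne_zero _))).trans (by rw [e2, h2])⟩

theorem root_le {P : ℂ[X][X]} (hP : P.Monic) {t z : ℂ} (h : eval₂ (evalRingHom t) z P = 0) :
    ‖z‖ ≤ 1 + ∑ i ∈ Finset.range P.natDegree, ‖(P.coeff i).eval t‖ := by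
  have m := hP.map (evalRingHom t)
  have h1 := (IsRoot.norm_lt_cauchyBound m.ne_zero ((eval_map _ _).trans h)).le
  rw [cauchyBound, m.leadingCoeff, nnnorm_one, div_one, hP.natDegree_map, add_comm] at h1
  have h2 := h1.trans (add_le_add_right (Finset.sup_le fun i hi => Finset.single_le_sum
    (f := fun i => ‖((P.map (evalRingHom t)).coeff i)‖₊) (fun _ _ => zero_le) hi) 1)
  simpa using NNReal.coe_le_coe.2 h2

theorem mer_zero {c : ℂ → ℂ} (h : MeromorphicAt c 0) :
    ∀ᶠ n : ℕ in atTop, Tendsto (fun s => ‖s ^ n * c s‖) (𝓝[≠] 0) (𝓝 0) := by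
  obtain ⟨k, hk⟩ := h
  filter_upwards [eventually_gt_atTop k] with n hn
  obtain ⟨j, rfl⟩ := Nat.exists_eq_add_of_lt hn
  have := (((continuous_pow (j + 1)).continuousAt.mul hk.continuousAt).norm.tendsto).mono_left
    (nhdsWithin_le_nhds (s := {0}ᶜ))
  simp only [Pi.mul_apply, pow_succ, mul_zero, zero_mul, norm_zero, sub_zero, smul_eq_mul] at this
  exact this.congr fun s => by congr 1; ring

theorem mer_eval (q : ℂ[X]) {t : ℂ → ℂ} (ht : MeromorphicAt t 0) :
    MeromorphicAt (fun s => q.eval (t s)) 0 := by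
  simp only [eval_eq_sum_range]
  exact MeromorphicAt.fun_sum fun i _ => (MeromorphicAt.const _ _).mul (ht.pow i)

theorem mer {P : ℂ[X][X]} (hP : P.Monic) {t β : ℂ → ℂ} (ht : MeromorphicAt t 0)
    (hd : ∀ᶠ s in 𝓝[≠] 0, DifferentiableAt ℂ β s)
    (h : ∀ᶠ s in 𝓝[≠] 0, eval₂ (evalRingHom (t s)) (β s) P = 0) : MeromorphicAt β 0 := by
  obtain ⟨n, ⟨n0, h1⟩, h2⟩ := (((eventually_ne_atTop 0).and (mer_zero (.const 1 0))).and
    ((eventually_all_finset (Finset.range P.natDegree)).2 fun i _ =>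
      mer_zero (mer_eval (P.coeff i) ht))).exists
  refine ⟨n, analyticAt_of_differentiable_on_punctured_nhds_of_continuousAt
    (hd.mono fun s hs => DifferentiableAt.smul (c := fun z : ℂ => (z - 0) ^ n) (by fun_prop) hs) ?_⟩
  rw [← continuousWithinAt_compl_self, ContinuousWithinAt, sub_zero, zero_pow n0, zero_smul]
  have h3 := h1.add (tendsto_finsetSum _ h2)
  rw [Finset.sum_const_zero, add_zero] at h3
  refine squeeze_zero_norm' (h.mono fun s hs => ?_) h3
  simp only [norm_mul, norm_smul, sub_zero, ← Finset.mul_sum, ← mul_add, norm_one]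
  exact mul_le_mul_of_nonneg_left (root_le hP hs) (norm_nonneg _)

end Vale.Agent.P300LS
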