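import Vale.Agent.P300LS.Stmt
import Mathlib.Topology.Homotopy.Lifting
import Mathlib.Analysis.Convex.Contractible
import Mathlib.Analysis.Normed.Module.Connected

/-!
P300L : the topological part of LARGE. A curve whose fundamental group has a finite image lifts to
a compact set swept out by holomorphic discs.
-/

open scoped Manifold ContDiff Topology
open Filter Set Metric

namespace Vale.Agent.P300LS

open P300

variable {E : Type} [NormedAddCommGroup E] [NormedSpace ℂ E]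
  {V : Type} [TopologicalSpace V] [ChartedSpace E V]
  {X : Type} [TopologicalSpace X] [ChartedSpace E X]

theorem swept_of [T2Space V] {F : Set ((ℂ → V) × ℝ)} (hF : F.Finite) {K : Set V}
    (hK : K = ⋃ q ∈ F, q.1 '' closedBall 0 q.2)
    (h : ∀ q ∈ F, ∃ R, q.2 < R ∧ ∀ s ∈ ball (0 : ℂ) R,
      ContMDiffAt 𝓘(ℂ) 𝓘(ℂ, E) ω q.1 s ∧ q.1 s ∈ K) : IsCompact K ∧ Swept E K := by
  have c : ∀ q ∈ F, ∀ s ∈ closedBall (0 : ℂ) q.2, ContinuousAt q.1 s := fun q hq s hs =>
    let ⟨_, a, b⟩ := h q hq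
    (b s (closedBall_subset_ball a hs)).1.continuousAt
  refine ⟨hK ▸ hF.isCompact_biUnion fun q hq => (isCompact_closedBall _ _).image_of_continuousOn
    fun s hs => (c q hq s hs).continuousWithinAt, fun k hk U hU => ?_⟩
  have d : IsClosed (⋃ q ∈ F, q.1 '' (closedBall 0 q.2 \ interior (q.1 ⁻¹' U))) :=
    (hF.isCompact_biUnion fun q hq => ((isCompact_closedBall _ _).diff
      isOpen_interior).image_of_continuousOn fun s hs => (c q hq s hs.1).continuousWithinAt).isClosed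
  refine mem_nhdsWithin.2 ⟨_, d.isOpen_compl, fun e => ?_, fun v hv => ?_⟩
  · obtain ⟨q, hq, s, hs, e⟩ := mem_iUnion₂.1 e
    obtain ⟨R, a, b⟩ := h q hq
    have s1 := closedBall_subset_ball a hs.1
    have t : Tendsto (fun u : ℂ => s + u) (𝓝 0) (𝓝 s) :=
      (by fun_prop : Continuous fun u : ℂ => s + u).tendsto' _ _ (add_zero s)
    have := hU (fun u => q.1 (s + u)) ⟨by simpa using e, ContMDiffAt.comp_of_eq (b s s1).1
      (by fun_prop : ContDiff ℂ ω fun u : ℂ => s + u).contMDiff.contMDiffAt (add_zero s),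
      (t.eventually (isOpen_ball.mem_nhds s1)).mono fun u hu => (b _ hu).2⟩
    refine hs.2 (mem_interior_iff_mem_nhds.2 ?_)
    have t' : Tendsto (fun u : ℂ => u - s) (𝓝 s) (𝓝 0) :=
      (by fun_prop : Continuous fun u : ℂ => u - s).tendsto' _ _ (sub_self s)
    exact (t'.eventually this).mono fun u hu => by simpa using hu
  · obtain ⟨q, hq, s, hs, rfl⟩ := mem_iUnion₂.1 (hK ▸ hv.2)
    by_contra n
    exact hv.1 (mem_iUnion₂.2 ⟨q, hq, s, ⟨hs, fun i => n (interior_subset (s := q.1 ⁻¹' U) i)⟩, rfl⟩)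

omit [ChartedSpace E V] [ChartedSpace E X] in
theorem fib_finite {p : V → X} (hp : IsCoveringMap p) {Y : Type} [TopologicalSpace Y]
    (f : C(Y, X)) (y0 : Y) (v0 : V) (h0 : p v0 = f y0)
    (hf : (range (FundamentalGroup.map f y0)).Finite) (y : Y) :
    {v | JoinedIn {q : Y × V | f q.1 = p q.2} (y0, v0) (y, v)}.Finite := by
  have m : ∀ v, JoinedIn {q : Y × V | f q.1 = p q.2} (y0, v0) (y, v) → ∃ γ : Path y0 y,
      (hp.monodromy ((Path.Homotopic.Quotient.mk γ).map f) ⟨v0, h0⟩).1 = v := by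
    rintro v ⟨c, hc⟩
    have hv : p v = f y := by simpa using (hc 1).symm
    refine ⟨c.map continuous_fst, congrArg Subtype.val (hp.monodromy_eq_of_map_eq
      (ey := ⟨v, hv⟩) (.mk (c.map continuous_snd)) ?_)⟩
    refine congrArg Path.Homotopic.Quotient.mk ?_
    ext t
    exact (hc t).symm
  rcases eq_empty_or_nonempty {v | JoinedIn {q : Y × V | f q.1 = p q.2} (y0, v0) (y, v)} with
    e | ⟨v1, h1⟩
  · rw [e]
    exact finite_empty
  obtain ⟨γ1, -⟩ := m v1 h1
  refine (hf.image fun c => (hp.monodromy ((Path.Homotopic.Quotient.mk γ1).map f)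
    (hp.monodromy (FundamentalGroup.toPath c) ⟨v0, h0⟩)).1).subset fun v hv => ?_
  obtain ⟨γ, rfl⟩ := m v hv
  refine ⟨_, ⟨FundamentalGroup.fromPath (.mk (γ.trans γ1.symm)), rfl⟩, congrArg Subtype.val ?_⟩
  have e : FundamentalGroup.toPath (FundamentalGroup.map f y0
      (FundamentalGroup.fromPath (.mk (γ.trans γ1.symm)))) =
      ((Path.Homotopic.Quotient.mk γ).map f).trans
        ((Path.Homotopic.Quotient.mk γ1).map f).symm :=
    congrArg Path.Homotopic.Quotient.mk (Path.map_trans γ γ1.symm f.continuous)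
  rw [e, ← hp.monodromy_trans_apply, Path.Homotopic.Quotient.trans_assoc,
    Path.Homotopic.Quotient.symm_trans, Path.Homotopic.Quotient.trans_refl]

/-- the radial retraction to a disc -/
noncomputable def retr (c : ℝ) (s : ℂ) : ℂ := ((c / max c ‖s‖ : ℝ) : ℂ) * s

theorem retr_cont {c : ℝ} (hc : 0 < c) : Continuous (retr c) :=
  (Complex.continuous_ofReal.comp (continuous_const.div (by fun_prop)
    fun _ => (lt_max_of_lt_left hc).ne')).mul continuous_id

theorem retr_eq {c : ℝ} (hc : 0 < c) {s : ℂ} (hs : s ∈ ball (0 : ℂ) c) : retr c s = s := by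
  rw [retr, max_eq_left (mem_ball_zero_iff.1 hs).le, div_self hc.ne', Complex.ofReal_one, one_mul]

theorem retr_mem {c : ℝ} (hc : 0 < c) (s : ℂ) : retr c s ∈ closedBall (0 : ℂ) c := by
  have := lt_max_of_lt_left (c := ‖s‖) hc
  rw [mem_closedBall_zero_iff, retr, norm_mul, Complex.norm_real, Real.norm_of_nonneg
    (by positivity), div_mul_eq_mul_div, div_le_iff₀ this]
  exact mul_le_mul_of_nonneg_left (le_max_right _ _) hc.le

/-- finitely many discs cover the part of `Y` over a neighbourhood of `t0` -/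
def Loc (E : Type) [NormedAddCommGroup E] [NormedSpace ℂ E] [ChartedSpace E X] {Y B : Type}
    [TopologicalSpace Y] [TopologicalSpace B] (f : Y → X) (τ : Y → B) (t0 : B) : Prop :=
  ∃ (A : Type) (_ : Finite A) (r : ℝ) (O : Set ℂ) (δ : A → ℂ → Y) (g : A → ℂ → X), 0 < r ∧
    IsPathConnected O ∧ O ⊆ ball 0 (2 * r) ∧ ball 0 (2 * r) \ {0} ⊆ O ∧
    (∀ a, ContinuousOn (δ a) O) ∧
    (∀ a, ∀ s ∈ ball (0 : ℂ) (3 * r), ContMDiffAt 𝓘(ℂ) 𝓘(ℂ, E) ω (g a) s) ∧
    (∀ a, ∀ s ∈ O, g a s = f (δ a s)) ∧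
    ∀ᶠ t in 𝓝 t0, ∀ y, τ y = t → ∃ a, ∃ s ∈ O ∩ closedBall 0 r, δ a s = y

theorem top [T2Space V] {p : V → X} (hp : IsHolomorphicCovering E p) (hV : NoCurve E V)
    {Y B : Type} [TopologicalSpace Y] [TopologicalSpace B] [CompactSpace B] (f : C(Y, X))
    (τ : Y → B) (h : ∀ t0, Loc E f τ t0) (y0 : Y)
    (hf : (range (FundamentalGroup.map f y0)).Finite) : (f '' pathComponent y0).Finite := by
  obtain ⟨v0, h0⟩ := hp.2.1 (f y0)
  let P (y : Y) (v : V) := JoinedIn {q : Y × V | f q.1 = p q.2} (y0, v0) (y, v)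
  choose A fA r O δ g r0 oc o1 o2 dc gc gf cov using h
  have r2 : ∀ t, 0 < 2 * r t := fun t => by linarith [r0 t]
  let G (t) (a : A t) : C(ℂ, X) := ⟨fun s => g t a (retr (2 * r t) s), continuous_iff_continuousAt.2
    fun s => (gc t a _ (closedBall_subset_ball (by linarith [r0 t])
      (retr_mem (r2 t) s))).continuousAt.comp (retr_cont (r2 t)).continuousAt⟩
  have Ge : ∀ t a, ∀ s ∈ O t, G t a s = f (δ t a s) := fun t a s hs =>
    (congrArg (g t a) (retr_eq (r2 t) (o1 t hs))).trans (gf t a s hs)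
  have jn : ∀ t a (L : C(ℂ, V)), p ∘ L = G t a → ∀ s ∈ O t, ∀ s' ∈ O t, P (δ t a s) (L s) →
      P (δ t a s') (L s') := fun t a L hL s hs s' hs' hP => hP.trans
    ((((oc t).joinedIn s hs s' hs').map_continuousOn (f := fun u => (δ t a u, L u))
      ((dc t a).prodMk L.continuous.continuousOn)).mono (by
        rintro _ ⟨u, hu, rfl⟩
        exact (Ge t a u hu).symm.trans (congrFun hL u).symm))
  obtain ⟨T, hT⟩ := CompactSpace.elim_nhds_subcover _ cov
  have s1 : ∀ t, (r t : ℂ) ∈ O t := fun t => o2 t ⟨by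
    rw [mem_ball_zero_iff, Complex.norm_real, Real.norm_of_nonneg (r0 t).le]
    linarith [r0 t], Complex.ofReal_ne_zero.2 (r0 t).ne'⟩
  let F : Set ((ℂ → V) × ℝ) := ⋃ t ∈ T, ⋃ a : A t, (fun L : C(ℂ, V) => ((L : ℂ → V), r t)) ''
    {L | p ∘ L = G t a ∧ P (δ t a (r t)) (L (r t))}
  have hF : F.Finite := T.finite_toSet.biUnion fun t _ => finite_iUnion fun a => Finite.image _
    (Finite.of_injOn (f := fun L : C(ℂ, V) => L (r t)) (fun L hL => hL.2)
      (fun L hL L' hL' e => DFunLike.coe_injective (hp.1.eq_of_comp_eq L.continuous L'.continuous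
        (hL.1.trans hL'.1.symm) _ e)) (fib_finite hp.1 f y0 v0 h0 hf (δ t a (r t))))
  have cv : ∀ y v, P y v → v ∈ ⋃ q ∈ F, q.1 '' closedBall 0 q.2 := fun y v hP => by
    obtain ⟨t, ht, e⟩ := mem_iUnion₂.1 (hT.ge (mem_univ (τ y)))
    obtain ⟨a, s, hs, rfl⟩ := e y rfl
    obtain ⟨L, ⟨rfl, hL⟩, -⟩ := hp.1.existsUnique_continuousMap_lifts (G t a) s v
      (hP.target_mem.symm.trans (Ge t a s hs.1).symm)
    exact mem_iUnion₂.2 ⟨(L, r t), mem_iUnion₂.2 ⟨t, ht, mem_iUnion.2 ⟨a, L,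
      ⟨hL, jn t a L hL s hs.1 _ (s1 t) hP⟩, rfl⟩⟩, s, hs.2, rfl⟩
  have hK := swept_of (E := E) hF rfl fun q hq => by
    obtain ⟨t, ht, e⟩ := mem_iUnion₂.1 hq
    obtain ⟨a, L, ⟨hL, hP⟩, rfl⟩ := mem_iUnion.1 e
    refine ⟨2 * r t, by linarith [r0 t], fun s hs => ⟨?_, ?_⟩⟩
    · have d := hp.2.2 (L s)
      have e : ∀ᶠ u in 𝓝 s, p (L u) = g t a u := by
        filter_upwards [isOpen_ball.mem_nhds hs] with u hu
        exact (congrFun hL u).trans (congrArg (g t a) (retr_eq (r2 t) hu))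
      refine (ContMDiffAt.comp_of_eq d.localInverse_contMDiffAt (gc t a s (ball_subset_ball
        (by linarith [r0 t]) hs)) e.self_of_nhds.symm).congr_of_eventuallyEq ?_
      filter_upwards [e, L.continuous.continuousAt.eventually d.localInverse_eventuallyEq_left]
        with u h1 h2
      exact h2.symm.trans (congrArg _ h1)
    · by_cases e : s = 0
      · exact mem_iUnion₂.2 ⟨_, hq, s, e ▸ mem_closedBall_self (r0 t).le, rfl⟩
      · exact cv _ _ (jn t a L hL _ (s1 t) s (o2 t ⟨hs, e⟩) hP)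
  refine ((hV _ hK.1 hK.2).image p).subset ?_
  rintro _ ⟨y, ⟨γ⟩, rfl⟩
  obtain ⟨Γ, h1, h2⟩ := hp.1.exists_path_lifts (f.comp γ.toContinuousMap) v0 (by simp [h0])
  have e : ∀ t, p (Γ t) = f (γ t) := congrFun h1
  exact ⟨Γ 1, cv y _ ⟨⟨⟨fun t => (γ t, Γ t), by fun_prop⟩, by simp [h2], by simp⟩,
    fun t => (e t).symm⟩, by simp [e]⟩

end Vale.Agent.P300LS
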